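import Vale.Agent.P131.H97.Pert

/-!
Windows of weighted shifts.
-/

namespace Vale.Agent.P131.H97

open Module ContinuousLinearMap

/-- a window of a weighted shift: `T` has norm `≤ ε` and acts on `n + 1` consecutive copies of `H`
as `ε` times a shift -/
def Window {X : Type*} [NormedAddCommGroup X] [InnerProductSpace ℂ X] (H : Type*)
    [NormedAddCommGroup H] [InnerProductSpace ℂ H] (T : X →L[ℂ] X) (ε : ℝ) (n : ℕ) : Prop :=
  (∀ ξ, ‖T ξ‖ ≤ ε * ‖ξ‖) ∧ ∃ E : ℕ → H →ₗᵢ[ℂ] X,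
    (∀ j, j ≤ n → ∀ x, T (E j x) = (ε : ℂ) • E (j + 1) x) ∧
    ∀ i j x y, i ≠ j → inner ℂ (E i x) (E j y) = 0

end Vale.Agent.P131.H97
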