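import Vale.Agent.P131.H97.QPert2

/-!
Approximation of a quasinilpotent operator by operators similar to a shift model.
-/

namespace Vale.Agent.P131.H97

open Module ContinuousLinearMap

theorem approx_of_window2 {X H : Type*} [NormedAddCommGroup X] [InnerProductSpace ℂ X]
    [CompleteSpace X] [TopologicalSpace.SeparableSpace X]
    [NormedAddCommGroup H] [InnerProductSpace ℂ H]
    [CompleteSpace H] [TopologicalSpace.SeparableSpace H] (hH : ¬ FiniteDimensional ℂ H)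
    {N : H →L[ℂ] H} {n : ℕ} {Y : Submodule ℂ H} (hYc : IsClosed (Y : Set H))
    (hYi : ¬ FiniteDimensional ℂ Y) (a : Y →L[ℂ] H) (b : H →L[ℂ] Y) (hba : ∀ y, b (a y) = y)
    {ε A κ η ν : ℝ} (hε : 0 < ε) (hA : 0 ≤ A) (hκ : 0 ≤ κ) (hη : 0 ≤ η) (hν : 0 ≤ ν)
    (hNν : ‖N‖ ≤ ν) (hN : ‖N ^ (n + 1)‖ ≤ κ)
    (hNa : ∀ y, ‖N (a y)‖ ≤ η * ‖y‖) (hbN : ∀ x, ‖b (N x)‖ ≤ η * ‖x‖)
    (ha : ∀ y, ‖a y‖ ≤ A * ‖y‖) (hb : ∀ x, ‖b x‖ ≤ ‖x‖)
    (T : X →L[ℂ] X) (hT : Window H T ε n) :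
    ∃ S : X ≃L[ℂ] H, (∀ ξ, ‖S ξ‖ ≤ ε⁻¹ ^ n * (1 + A) * ‖ξ‖) ∧
      (∀ x, ‖S.symm x‖ ≤
        ((∑ j ∈ Finset.range (n + 1), ε ^ j * ν ^ (n - j)) * (1 + A) + ε ^ n) * ‖x‖) ∧
      ‖(S : X →L[ℂ] H) ∘L T ∘L (S.symm : H →L[ℂ] X) - N‖ ≤
      ε * (1 + A) ^ 2 + (ε⁻¹ ^ n * (1 + A) ^ 2) * κ +
        η * (1 + (A + ε⁻¹ ^ n * (1 + A) * ((∑ j ∈ Finset.range (n + 1), ε ^ j * ν ^ (n - j)) * A))
          * (1 + A)) := by
  have hscH : SecondCountableTopology H := UniformSpace.secondCountable_of_separable H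
  have hscX : SecondCountableTopology X := UniformSpace.secondCountable_of_separable X
  have : CompleteSpace Y := hYc.completeSpace_coe
  let c : H →L[ℂ] H := ContinuousLinearMap.id ℂ H - a ∘L b
  have hc : ∀ x, c x = x - a (b x) := fun x => rfl
  have hcn : ∀ x, ‖c x‖ ≤ (1 + A) * ‖x‖ := fun x => by
    rw [hc]
    refine (norm_sub_le _ _).trans ?_
    have h1 := (ha (b x)).trans (mul_le_mul_of_nonneg_left (hb x) hA)
    linarith
  have hεC : (ε : ℂ) ≠ 0 := by rw [Complex.ofReal_ne_zero]; exact hε.ne'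
  obtain ⟨hTn, E, hTE, hEE⟩ := hT
  -- the embedding
  let J : H →L[ℂ] X := ∑ j ∈ Finset.range (n + 1),
    ((ε : ℂ) ^ j) • ((E j).toContinuousLinearMap ∘L (N ^ (n - j)))
  have hJ : ∀ x, J x = ∑ j ∈ Finset.range (n + 1), ((ε : ℂ) ^ j) • E j ((N ^ (n - j)) x) := by
    intro x
    simp only [J, _root_.sum_apply]
    rfl
  -- left inverse
  let L : X →L[ℂ] H := ((ε : ℂ)⁻¹ ^ n) • adjoint (E n).toContinuousLinearMap
  have hLE : ∀ j x, j ≠ n → L (E j x) = 0 := by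
    intro j x hj
    have h1 : adjoint (E n).toContinuousLinearMap (E j x) = 0 := by
      apply ext_inner_right ℂ
      intro y
      rw [adjoint_inner_left, inner_zero_left]
      exact hEE j n x y hj
    change ((ε : ℂ)⁻¹ ^ n) • adjoint (E n).toContinuousLinearMap (E j x) = 0
    rw [h1, smul_zero]
  have hLEn : ∀ x, L (E n x) = ((ε : ℂ)⁻¹ ^ n) • x := by
    intro x
    have h1 : adjoint (E n).toContinuousLinearMap (E n x) = x := by
      apply ext_inner_right ℂ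
      intro y
      rw [adjoint_inner_left]
      exact (E n).inner_map_map x y
    change ((ε : ℂ)⁻¹ ^ n) • adjoint (E n).toContinuousLinearMap (E n x) = _
    rw [h1]
  have hLJ : ∀ x, L (J x) = x := by
    intro x
    rw [hJ, map_sum, Finset.sum_eq_single_of_mem n (Finset.mem_range.2 (Nat.lt_succ_self n))]
    · rw [map_smul, hLEn, Nat.sub_self, pow_zero, smul_smul, ← mul_pow, mul_inv_cancel₀ hεC,
        one_pow, one_smul]
      rfl
    · intro j _ hj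
      rw [map_smul, hLE j _ hj, smul_zero]
  have hLn : ∀ ξ, ‖L ξ‖ ≤ (ε⁻¹) ^ n * ‖ξ‖ := by
    intro ξ
    change ‖((ε : ℂ)⁻¹ ^ n) • adjoint (E n).toContinuousLinearMap ξ‖ ≤ _
    rw [norm_smul, norm_pow, norm_inv, Complex.norm_real, Real.norm_eq_abs, abs_of_pos hε]
    refine mul_le_mul_of_nonneg_left ?_ (by positivity)
    have h1 : ‖adjoint (E n).toContinuousLinearMap‖ ≤ 1 := by
      rw [LinearIsometryEquiv.norm_map]
      exact (E n).norm_toContinuousLinearMap_le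
    exact (ContinuousLinearMap.le_of_opNorm_le _ h1 ξ).trans (by rw [one_mul])
  -- the action on the image
  have hTJ : ∀ x, T (J x) = J (N x) - E 0 ((N ^ (n + 1)) x)
      + ((ε : ℂ) ^ (n + 1)) • E (n + 1) x := by
    intro x
    have h1 : T (J x) = ∑ j ∈ Finset.range (n + 1),
        ((ε : ℂ) ^ (j + 1)) • E (j + 1) ((N ^ (n - j)) x) := by
      rw [hJ, map_sum]
      refine Finset.sum_congr rfl fun j hj => ?_
      rw [map_smul, hTE j (Nat.lt_succ_iff.1 (Finset.mem_range.1 hj)), smul_smul, pow_succ]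
    have h2 : J (N x) = ∑ j ∈ Finset.range n,
        ((ε : ℂ) ^ (j + 1)) • E (j + 1) ((N ^ (n - j)) x) + E 0 ((N ^ (n + 1)) x) := by
      rw [hJ, Finset.sum_range_succ']
      have h3 : (N ^ (n - 0)) (N x) = (N ^ (n + 1)) x := by
        rw [Nat.sub_zero, pow_succ]
        rfl
      rw [h3, pow_zero, one_smul]
      refine congrArg (· + _) ?_
      refine Finset.sum_congr rfl fun j hj => ?_
      have hj' := Finset.mem_range.1 hj
      have h4 : n - j = (n - (j + 1)) + 1 := by omega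
      have h5 : (N ^ (n - j)) x = (N ^ (n - (j + 1))) (N x) := by
        rw [h4, pow_succ]
        rfl
      rw [h5]
    rw [h1, h2, Finset.sum_range_succ, Nat.sub_self, pow_zero, add_sub_cancel_right]
    rfl
  -- the closed subspace
  let M : Submodule ℂ X := LinearMap.ker ((J ∘L L - ContinuousLinearMap.id ℂ X : X →L[ℂ] X) : X →ₗ[ℂ] X)
    ⊓ LinearMap.ker ((b ∘L L : X →L[ℂ] Y) : X →ₗ[ℂ] Y)
  have hMmem : ∀ ξ, ξ ∈ M ↔ J (L ξ) = ξ ∧ b (L ξ) = 0 := by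
    intro ξ
    rw [Submodule.mem_inf, LinearMap.mem_ker, LinearMap.mem_ker]
    change J (L ξ) - ξ = 0 ∧ _ ↔ _
    rw [sub_eq_zero]
    rfl
  have hMc : IsClosed (M : Set X) :=
    (J ∘L L - ContinuousLinearMap.id ℂ X).isClosed_ker.inter (b ∘L L).isClosed_ker
  have : CompleteSpace M := hMc.completeSpace_coe
  have hJM : ∀ x, b x = 0 → J x ∈ M := fun x hx => by
    rw [hMmem, hLJ]
    exact ⟨rfl, hx⟩
  have hEM : ∀ x, E (n + 1) x ∈ Mᗮ := by
    intro x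
    rw [Submodule.mem_orthogonal]
    intro ξ hξ
    rw [← ((hMmem ξ).1 hξ).1, hJ, sum_inner]
    refine Finset.sum_eq_zero fun j hj => ?_
    rw [inner_smul_left, hEE j (n + 1) _ _ (by have := Finset.mem_range.1 hj; omega), mul_zero]
  have hMi : ¬ FiniteDimensional ℂ Mᗮ := by
    intro hfin
    let f : H →ₗ[ℂ] Mᗮ := (E (n + 1)).toLinearMap.codRestrict Mᗮ hEM
    refine hH (FiniteDimensional.of_injective f fun x y hxy => ?_)
    exact (E (n + 1)).injective (congrArg Subtype.val hxy)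
  obtain ⟨G⟩ := Vale.Agent.P131.exists_equiv Y Mᗮ hYi hMi
  -- the similarity
  let P := M.orthogonalProjectionOnto
  let Q := Mᗮ.orthogonalProjectionOnto
  let F : H →L[ℂ] X := J ∘L c + ((ε : ℂ) ^ n) • (Mᗮ.subtypeL ∘L
    (G.toContinuousLinearEquiv : Y →L[ℂ] Mᗮ) ∘L b)
  have hF : ∀ x, F x = J (c x) + ((ε : ℂ) ^ n) • (G (b x) : X) := fun x => rfl
  let F' : X →L[ℂ] H := L ∘L M.subtypeL ∘L P + ((ε : ℂ)⁻¹ ^ n) • (a ∘L
    (G.symm.toContinuousLinearEquiv : Mᗮ →L[ℂ] Y) ∘L Q)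
  have hF' : ∀ ξ, F' ξ = L (P ξ : X) + ((ε : ℂ)⁻¹ ^ n) • a (G.symm (Q ξ)) := fun ξ => rfl
  have hPM : ∀ ξ ∈ M, (P ξ : X) = ξ := fun ξ hξ =>
    congrArg Subtype.val (M.orthogonalProjectionOnto_mem_subspace_eq_self ⟨ξ, hξ⟩)
  have hQM : ∀ ξ ∈ M, Q ξ = 0 := fun ξ hξ => by
    rw [Submodule.orthogonalProjectionOnto_eq_zero_iff]
    exact M.le_orthogonal_orthogonal hξ
  have hPM' : ∀ ξ ∈ Mᗮ, P ξ = 0 := fun ξ hξ =>
    Submodule.orthogonalProjectionOnto_eq_zero_iff.2 hξ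
  have hQM' : ∀ ξ (hξ : ξ ∈ Mᗮ), Q ξ = ⟨ξ, hξ⟩ := fun ξ hξ =>
    Mᗮ.orthogonalProjectionOnto_mem_subspace_eq_self ⟨ξ, hξ⟩
  have hPQ : ∀ ξ, (P ξ : X) + (Q ξ : X) = ξ := fun ξ =>
    M.starProjection_add_starProjection_orthogonal ξ
  have hbc : ∀ x, b (c x) = 0 := fun x => by rw [hc, map_sub, hba, sub_self]
  have hε1 : ((ε : ℂ)⁻¹ ^ n) * ((ε : ℂ) ^ n) = 1 := by
    rw [← mul_pow, inv_mul_cancel₀ hεC, one_pow]
  have hε2 : ((ε : ℂ) ^ n) * ((ε : ℂ)⁻¹ ^ n) = 1 := by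
    rw [← mul_pow, mul_inv_cancel₀ hεC, one_pow]
  have hF'J : ∀ x, b x = 0 → F' (J x) = x := fun x hx => by
    rw [hF', hPM _ (hJM x hx), hQM _ (hJM x hx), hLJ, map_zero, map_zero, smul_zero, add_zero]
  have hF'G : ∀ z : Mᗮ, F' (z : X) = ((ε : ℂ)⁻¹ ^ n) • a (G.symm z) := fun z => by
    rw [hF', hPM' _ z.2, hQM' _ z.2]
    simp
  have hleft : ∀ x, F' (F x) = x := by
    intro x
    rw [hF, map_add, map_smul, hF'J _ (hbc x), hF'G, smul_smul, hε2, one_smul,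
      G.symm_apply_apply, hc]
    abel
  have hright : ∀ ξ, F (F' ξ) = ξ := by
    intro ξ
    have h1 : b (L (P ξ : X)) = 0 := ((hMmem _).1 (P ξ).2).2
    have h2 : J (L (P ξ : X)) = (P ξ : X) := ((hMmem _).1 (P ξ).2).1
    have h3 : b (F' ξ) = ((ε : ℂ)⁻¹ ^ n) • G.symm (Q ξ) := by
      rw [hF', map_add, map_smul, hba, h1, zero_add]
    have h4 : c (F' ξ) = L (P ξ : X) := by
      rw [hc, h3, hF', map_smul]
      abel
    rw [hF, h3, h4, h2, map_smul, G.apply_symm_apply, Submodule.coe_smul, smul_smul, hε2,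
      one_smul, hPQ]
  let S : X ≃L[ℂ] H := ContinuousLinearEquiv.equivOfInverse F' F hright hleft
  have hF'n : ∀ ξ, ‖F' ξ‖ ≤ ε⁻¹ ^ n * (1 + A) * ‖ξ‖ := by
    intro ξ
    rw [hF']
    refine (norm_add_le _ _).trans ?_
    rw [norm_smul, norm_pow, norm_inv, Complex.norm_real, Real.norm_eq_abs, abs_of_pos hε]
    have h1 : ‖L (P ξ : X)‖ ≤ ε⁻¹ ^ n * ‖ξ‖ := (hLn _).trans
      (mul_le_mul_of_nonneg_left (M.norm_orthogonalProjectionOnto_apply_le ξ) (by positivity))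
    have h2 : ‖a (G.symm (Q ξ))‖ ≤ A * ‖ξ‖ := by
      refine (ha _).trans (mul_le_mul_of_nonneg_left ?_ hA)
      rw [G.symm.norm_map]
      exact Mᗮ.norm_orthogonalProjectionOnto_apply_le ξ
    calc ‖L (P ξ : X)‖ + ε⁻¹ ^ n * ‖a (G.symm (Q ξ))‖ ≤ ε⁻¹ ^ n * ‖ξ‖ + ε⁻¹ ^ n * (A * ‖ξ‖) :=
          add_le_add h1 (mul_le_mul_of_nonneg_left h2 (by positivity))
      _ = ε⁻¹ ^ n * (1 + A) * ‖ξ‖ := by ring
  set Jb : ℝ := ∑ j ∈ Finset.range (n + 1), ε ^ j * ν ^ (n - j) with hJb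
  have hJb0 : 0 ≤ Jb := Finset.sum_nonneg fun j _ => by positivity
  have hpow : ∀ m : ℕ, ∀ y : H, ‖(N ^ m) y‖ ≤ ν ^ m * ‖y‖ := by
    intro m
    induction m with
    | zero => intro y; simp
    | succ m ih =>
      intro y
      have h1 : (N ^ (m + 1)) y = N ((N ^ m) y) := by rw [pow_succ']; rfl
      rw [h1, pow_succ', mul_assoc]
      exact (N.le_of_opNorm_le hNν _).trans (mul_le_mul_of_nonneg_left (ih y) hν)
  have hJn : ∀ y, ‖J y‖ ≤ Jb * ‖y‖ := by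
    intro y
    rw [hJ, hJb, Finset.sum_mul]
    refine (norm_sum_le _ _).trans (Finset.sum_le_sum fun j _ => ?_)
    rw [norm_smul, norm_pow, Complex.norm_real, Real.norm_eq_abs, abs_of_pos hε,
      (E j).norm_map, mul_assoc]
    exact mul_le_mul_of_nonneg_left (hpow _ y) (by positivity)
  -- the error of `F'` on the image of `J`
  have hF'Jn : ∀ y, ‖F' (J y) - y‖ ≤ (A + ε⁻¹ ^ n * (1 + A) * (Jb * A)) * ‖b y‖ := by
    intro y
    have h1 : F' (J y) - y = F' (J (a (b y))) - a (b y) := by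
      have h2 : F' (J (c y)) = c y := hF'J _ (hbc y)
      have h3 : F' (J y) = F' (J (c y)) + F' (J (a (b y))) := by
        rw [← map_add, ← map_add, hc, sub_add_cancel]
      rw [h3, h2, hc]
      abel
    rw [h1]
    refine (norm_sub_le _ _).trans ?_
    have h4 : ‖F' (J (a (b y)))‖ ≤ ε⁻¹ ^ n * (1 + A) * (Jb * (A * ‖b y‖)) :=
      (hF'n _).trans (mul_le_mul_of_nonneg_left ((hJn _).trans
        (mul_le_mul_of_nonneg_left (ha _) hJb0)) (by positivity))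
    have h5 := ha (b y)
    calc _ ≤ ε⁻¹ ^ n * (1 + A) * (Jb * (A * ‖b y‖)) + A * ‖b y‖ := add_le_add h4 h5
      _ = _ := by ring
  refine ⟨S, hF'n, fun x => ?_, ?_⟩
  · change ‖F x‖ ≤ _
    rw [hF]
    refine (norm_add_le _ _).trans ?_
    rw [norm_smul, norm_pow, Complex.norm_real, Real.norm_eq_abs, abs_of_pos hε]
    have h3 : ‖(G (b x) : X)‖ = ‖b x‖ := G.norm_map _
    rw [h3, add_mul]
    refine add_le_add ?_ (mul_le_mul_of_nonneg_left (hb x) (by positivity))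
    rw [mul_assoc]
    exact (hJn _).trans (mul_le_mul_of_nonneg_left (hcn x) hJb0)
  refine ContinuousLinearMap.opNorm_le_bound _ (by positivity) fun x => ?_
  have h0 : ((S : X →L[ℂ] H) ∘L T ∘L (S.symm : H →L[ℂ] X) - N) x = F' (T (F x)) - N x := rfl
  have h1 : T (F x) = J (N (c x)) - E 0 ((N ^ (n + 1)) (c x))
      + ((ε : ℂ) ^ (n + 1)) • E (n + 1) (c x) + ((ε : ℂ) ^ n) • T (G (b x) : X) := by
    rw [hF, map_add, hTJ, map_smul]
  have h2 : F' (T (F x)) - N x = (F' (J (N (c x))) - N (c x)) - N (a (b x))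
      - F' (E 0 ((N ^ (n + 1)) (c x)))
      + (ε : ℂ) • a (G.symm ⟨E (n + 1) (c x), hEM _⟩)
      + (((ε : ℂ) ^ n) • L (P (T (G (b x) : X)) : X) + a (G.symm (Q (T (G (b x) : X))))) := by
    have h3 : N (a (b x)) = N x - N (c x) := by rw [hc, map_sub]; abel
    have k1 : F' (((ε : ℂ) ^ (n + 1)) • E (n + 1) (c x)) =
        (ε : ℂ) • a (G.symm ⟨E (n + 1) (c x), hEM _⟩) := by
      have k0 : (ε : ℂ) ^ (n + 1) * (ε : ℂ)⁻¹ ^ n = ε := by
        rw [pow_succ, mul_right_comm, hε2, one_mul]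
      rw [map_smul, hF'G ⟨E (n + 1) (c x), hEM _⟩, smul_smul, k0]
    have k2 : F' (((ε : ℂ) ^ n) • T (G (b x) : X)) =
        ((ε : ℂ) ^ n) • L (P (T (G (b x) : X)) : X) + a (G.symm (Q (T (G (b x) : X)))) := by
      rw [map_smul, hF', smul_add, smul_smul, hε2, one_smul]
    rw [h1, map_add, map_add, map_sub, k1, k2, h3]
    abel
  rw [h0, h2]
  have hx := norm_nonneg x
  have e0 : ‖F' (J (N (c x))) - N (c x)‖ ≤
      (A + ε⁻¹ ^ n * (1 + A) * (Jb * A)) * (η * ((1 + A) * ‖x‖)) := by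
    refine (hF'Jn _).trans (mul_le_mul_of_nonneg_left ?_ (by positivity))
    exact (hbN _).trans (mul_le_mul_of_nonneg_left (hcn x) hη)
  have e0' : ‖N (a (b x))‖ ≤ η * ‖x‖ :=
    (hNa _).trans (mul_le_mul_of_nonneg_left (hb x) hη)
  have e0'' : ‖F' (E 0 ((N ^ (n + 1)) (c x)))‖ ≤ ε⁻¹ ^ n * (1 + A) * (κ * ((1 + A) * ‖x‖)) := by
    refine (hF'n _).trans (mul_le_mul_of_nonneg_left ?_ (by positivity))
    rw [(E 0).norm_map]
    refine ((N ^ (n + 1)).le_of_opNorm_le hN _).trans (mul_le_mul_of_nonneg_left (hcn x) hκ)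
  have e1 : ‖(ε : ℂ) • a (G.symm ⟨E (n + 1) (c x), hEM _⟩)‖ ≤ ε * (A * ((1 + A) * ‖x‖)) := by
    rw [norm_smul, Complex.norm_real, Real.norm_eq_abs, abs_of_pos hε]
    refine mul_le_mul_of_nonneg_left ?_ hε.le
    refine (ha _).trans (mul_le_mul_of_nonneg_left ?_ hA)
    rw [G.symm.norm_map]
    have h3 : ‖(⟨E (n + 1) (c x), hEM _⟩ : Mᗮ)‖ = ‖c x‖ := (E (n + 1)).norm_map _
    rw [h3]
    exact hcn x
  have hTG : ‖T (G (b x) : X)‖ ≤ ε * ‖x‖ := by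
    refine (hTn _).trans (mul_le_mul_of_nonneg_left ?_ hε.le)
    have h3 : ‖(G (b x) : X)‖ = ‖b x‖ := G.norm_map _
    rw [h3]
    exact hb x
  have e2 : ‖((ε : ℂ) ^ n) • L (P (T (G (b x) : X)) : X)‖ ≤ ε * ‖x‖ := by
    rw [norm_smul, norm_pow, Complex.norm_real, Real.norm_eq_abs, abs_of_pos hε]
    have h3 : ‖L (P (T (G (b x) : X)) : X)‖ ≤ (ε⁻¹) ^ n * (ε * ‖x‖) := by
      refine (hLn _).trans (mul_le_mul_of_nonneg_left ?_ (by positivity))
      have h4 : ‖(P (T (G (b x) : X)) : X)‖ ≤ ‖T (G (b x) : X)‖ :=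
        M.norm_orthogonalProjectionOnto_apply_le _
      exact h4.trans hTG
    calc ε ^ n * ‖L (P (T (G (b x) : X)) : X)‖ ≤ ε ^ n * ((ε⁻¹) ^ n * (ε * ‖x‖)) :=
          mul_le_mul_of_nonneg_left h3 (by positivity)
      _ = ε * ‖x‖ := by
          rw [← mul_assoc, ← mul_pow, mul_inv_cancel₀ hε.ne', one_pow, one_mul]
  have e3 : ‖a (G.symm (Q (T (G (b x) : X))))‖ ≤ A * (ε * ‖x‖) := by
    refine (ha _).trans (mul_le_mul_of_nonneg_left ?_ hA)
    rw [G.symm.norm_map]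
    exact (Mᗮ.norm_orthogonalProjectionOnto_apply_le _).trans hTG
  calc _ ≤ _ := norm_add_le _ _
    _ ≤ ((((A + ε⁻¹ ^ n * (1 + A) * (Jb * A)) * (η * ((1 + A) * ‖x‖)) + η * ‖x‖)
        + ε⁻¹ ^ n * (1 + A) * (κ * ((1 + A) * ‖x‖))) + ε * (A * ((1 + A) * ‖x‖)))
        + (ε * ‖x‖ + A * (ε * ‖x‖)) := by
        refine add_le_add ((norm_add_le _ _).trans (add_le_add ?_ e1))
          ((norm_add_le _ _).trans (add_le_add e2 e3))
        refine (norm_sub_le _ _).trans (add_le_add ((norm_sub_le _ _).trans ?_) e0'')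
        exact add_le_add e0 e0'
    _ = _ := by ring

end Vale.Agent.P131.H97
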