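import Vale.Agent.P131.H97.Spec
import Mathlib.SetTheory.Cardinal.Arithmetic

/-!
A universal operator on every infinite-dimensional Hilbert space.
-/

namespace Vale.Agent.P131.H97

open Module TopologicalSpace Vale.Agent.P131 Vale.Agent.P131.H856
open scoped ENNReal

universe u

section card

variable {H : Type u} [NormedAddCommGroup H] [InnerProductSpace ℂ H]

lemma countable_meet {κ : Type*} (G : κ → Submodule ℂ H) (hG : Pairwise (fun i j => G i ⟂ G j))
    (x : H) : {k | ∃ y ∈ G k, inner ℂ y x ≠ 0}.Countable := by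
  set K := {k | ∃ y ∈ G k, inner ℂ y x ≠ 0} with hK
  have h1 : ∀ k : K, ∃ y ∈ G k, inner ℂ y x ≠ 0 := fun k => k.2
  choose y hy1 hy2 using h1
  have hy0 : ∀ k, ‖y k‖ ≠ 0 := fun k h => hy2 k (by
    rw [norm_eq_zero.1 h, inner_zero_left])
  let v : K → H := fun k => ((‖y k‖ : ℂ)⁻¹) • y k
  have hv : Orthonormal ℂ v := by
    refine ⟨fun k => ?_, fun k l hkl => ?_⟩
    · simp only [v]
      rw [norm_smul, norm_inv, Complex.norm_real, norm_norm, inv_mul_cancel₀ (hy0 k)]
    · simp only [v]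
      rw [inner_smul_left, inner_smul_right,
        (Submodule.isOrtho_iff_inner_eq).1 (hG fun h => hkl (Subtype.ext h)) _ (hy1 k) _ (hy1 l),
        mul_zero, mul_zero]
  have h2 := (hv.inner_products_summable x).countable_support
  have h3 : (Function.support fun k : K => ‖inner ℂ (v k) x‖ ^ 2) = Set.univ := by
    refine Set.eq_univ_of_forall fun k => ?_
    rw [Function.mem_support]
    refine pow_ne_zero 2 (norm_ne_zero_iff.2 ?_)
    simp only [v]
    rw [inner_smul_left]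
    refine mul_ne_zero ?_ (hy2 k)
    rw [map_ne_zero]
    exact inv_ne_zero (by exact_mod_cast hy0 k)
  rw [h3, Set.countable_univ_iff] at h2
  exact Set.countable_coe_iff.1 h2

lemma countable_nonorth {κ : Type*} (G : κ → Submodule ℂ H)
    (hG : Pairwise (fun i j => G i ⟂ G j)) {F : Submodule ℂ H} (hF : IsSeparable (F : Set H)) :
    {k | ¬ F ⟂ G k}.Countable := by
  obtain ⟨c, hc, hFc⟩ := hF
  refine (hc.biUnion fun x _ => countable_meet G hG x).mono fun k hk => ?_
  by_contra hcon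
  simp only [Set.mem_iUnion, Set.mem_setOf_eq, not_exists, not_and, not_not] at hcon
  apply hk
  rw [Submodule.isOrtho_comm, Submodule.isOrtho_iff_inner_eq]
  intro y hy x hx
  have hcl : IsClosed {u : H | inner ℂ y u = 0} :=
    isClosed_eq (by fun_prop) continuous_const
  exact (closure_minimal (s := c) (fun d hd => hcon d hd y hy) hcl) (hFc hx)

lemma separable_of_countable {ι : Type*} [Countable ι] (F : ι → Submodule ℂ H)
    (hF : ∀ i, IsSeparable (F i : Set H)) (hd : (⨆ i, F i).topologicalClosure = ⊤) :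
    SeparableSpace H := by
  have h1 : (⨆ i, F i) = Submodule.span ℂ (⋃ i, (F i : Set H)) := by
    rw [Submodule.span_iUnion]
    exact iSup_congr fun i => (Submodule.span_eq _).symm
  have h2 : IsSeparable ((⨆ i, F i : Submodule ℂ H) : Set H) := by
    rw [h1]
    exact (IsSeparable.iUnion hF).span (R := ℂ)
  have h3 : IsSeparable (Set.univ : Set H) := by
    have h4 := h2.closure
    rwa [← Submodule.topologicalClosure_coe, hd, Submodule.top_coe] at h4
  exact isSeparable_univ_iff.1 h3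

lemma mk_le {ι κ : Type u} [Infinite ι] (F : ι → Submodule ℂ H) (G : κ → Submodule ℂ H)
    (hF : ∀ i, IsSeparable (F i : Set H)) (hFd : (⨆ i, F i).topologicalClosure = ⊤)
    (hG : Pairwise (fun i j => G i ⟂ G j)) (hG0 : ∀ k, G k ≠ ⊥) :
    Cardinal.mk κ ≤ Cardinal.mk ι := by
  have h1 : (⋃ i, {k | ¬ F i ⟂ G k}) = Set.univ := by
    refine Set.eq_univ_of_forall fun k => ?_
    by_contra hcon
    simp only [Set.mem_iUnion, Set.mem_setOf_eq, not_exists, not_not] at hcon
    have h2 : (⊤ : Submodule ℂ H) ≤ (G k)ᗮ := by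
      rw [← hFd]
      exact Submodule.topologicalClosure_minimal _
        (iSup_le fun i => (Submodule.isOrtho_iff_le).1 (hcon i)) (Submodule.isClosed_orthogonal _)
    refine hG0 k ?_
    rw [Submodule.eq_bot_iff]
    intro x hx
    exact inner_self_eq_zero.1 ((Submodule.mem_orthogonal _ x).1 (h2 (Submodule.mem_top)) x hx)
  calc Cardinal.mk κ = Cardinal.mk (Set.univ : Set κ) := Cardinal.mk_univ.symm
    _ = Cardinal.mk (⋃ i, {k | ¬ F i ⟂ G k} : Set κ) := by rw [h1]
    _ ≤ Cardinal.mk ι * ⨆ i, Cardinal.mk ({k | ¬ F i ⟂ G k} : Set κ) := Cardinal.mk_iUnion_le _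
    _ ≤ Cardinal.mk ι * Cardinal.aleph0 := by
        refine mul_le_mul' le_rfl (ciSup_le' fun i => ?_)
        exact Cardinal.le_aleph0_iff_set_countable.2 (countable_nonorth G hG (hF i))
    _ = Cardinal.mk ι := Cardinal.mul_aleph0_eq (Cardinal.aleph0_le_mk ι)

end card

/-- one operator on `H` whose similarity orbit is norm dense in the quasinilpotent operators -/
theorem universal_all (H : Type u) [NormedAddCommGroup H] [InnerProductSpace ℂ H] [CompleteSpace H]
    (hH : ¬ FiniteDimensional ℂ H) : ∃ T : H →L[ℂ] H, TC T ∧ QN T ∧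
      ∀ Q : H →L[ℂ] H, QN Q → ∀ ρ : ℝ, 0 < ρ → ∃ S : H ≃L[ℂ] H, ‖cj S T - Q‖ ≤ ρ := by
  obtain ⟨T₀, hTC, hQN, hU⟩ := exists_window_all.{u}
  have hmain : ∃ ι : Type u, Nonempty ι ∧ ∀ Q : H →L[ℂ] H, QN Q → ∀ ρ : ℝ, 0 < ρ →
      ∃ Φ : lp (fun _ : ι => Hs) 2 ≃L[ℂ] H, ‖cj Φ (amp ι T₀) - Q‖ ≤ ρ := by
    by_cases hs : SeparableSpace H
    · refine ⟨PUnit, ⟨PUnit.unit⟩, fun Q hQ ρ hρ => ?_⟩
      refine approx_gen hTC hQN hU hQ hρ (fun _ : PUnit => (⊤ : Submodule ℂ H)) (fun _ => ?_)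
        (fun i j hij => absurd (Subsingleton.elim i j) hij) ?_
      · refine ⟨isClosed_univ, fun _ _ => trivial, fun _ _ => trivial, ?_, fun hfin => hH ?_⟩
        · exact isSeparable_univ_iff.2 hs
        · exact Module.finite_def.2 ((Submodule.fg_top (⊤ : Submodule ℂ H)).1
            (Module.finite_def.1 hfin))
      · rw [iSup_const]
        exact (isClosed_univ (X := H)).submodule_topologicalClosure_eq
    · obtain ⟨𝒮₀, F₀, h𝒮₀, hred₀, horth₀, hdense₀⟩ := exists_decomp hH (0 : H →L[ℂ] H)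
      have hinf : ∀ (𝒮 : Set (Submodule ℂ H)) (F : 𝒮 → Submodule ℂ H)
          (_ : ∀ i, IsSeparable (F i : Set H)) (_ : (⨆ i, F i).topologicalClosure = ⊤),
          Infinite 𝒮 := fun 𝒮 F h1 h2 => by
        by_contra hcon
        rw [not_infinite_iff_finite] at hcon
        exact hs (separable_of_countable F h1 h2)
      have hbot : ∀ (Q : H →L[ℂ] H) (K : Submodule ℂ H), Red Q K → K ≠ ⊥ := fun Q K h hK => by
        apply h.2.2.2.2
        rw [hK]
        infer_instance
      refine ⟨𝒮₀, h𝒮₀.to_subtype, fun Q hQ ρ hρ => ?_⟩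
      obtain ⟨𝒮, F, h𝒮, hred, horth, hdense⟩ := exists_decomp hH Q
      have i1 : Infinite 𝒮₀ := hinf 𝒮₀ F₀ (fun i => (hred₀ i).2.2.2.1) hdense₀
      have i2 : Infinite 𝒮 := hinf 𝒮 F (fun i => (hred i).2.2.2.1) hdense
      obtain ⟨σ⟩ := Cardinal.eq.1 (le_antisymm
        (mk_le F F₀ (fun i => (hred i).2.2.2.1) hdense horth₀ (fun k => hbot _ _ (hred₀ k)))
        (mk_le F₀ F (fun i => (hred₀ i).2.2.2.1) hdense₀ horth (fun k => hbot _ _ (hred k))))
      refine approx_gen hTC hQN hU hQ hρ (fun i => F (σ i)) (fun i => hred (σ i))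
        (fun i j hij => horth (σ.injective.ne hij)) ?_
      rw [Equiv.iSup_comp (g := F) σ]
      exact hdense
  obtain ⟨ι, hι, hall⟩ := hmain
  have hQ0 : QN (0 : H →L[ℂ] H) := by
    intro L hL
    refine ⟨0, fun k x => ?_⟩
    cases k with
    | zero => simp
    | succ k =>
      rw [zero_pow (Nat.succ_ne_zero k)]
      simp only [ContinuousLinearMap.zero_apply, norm_zero]
      positivity
  obtain ⟨Φ₀, -⟩ := hall 0 hQ0 1 one_pos
  refine ⟨cj Φ₀ (amp ι T₀), (TC_amp hTC).conj Φ₀, (QN_amp hQN).conj Φ₀, fun Q hQ ρ hρ => ?_⟩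
  obtain ⟨Φ, hΦ⟩ := hall Q hQ ρ hρ
  refine ⟨Φ₀.symm.trans Φ, ?_⟩
  have h1 : cj (Φ₀.symm.trans Φ) (cj Φ₀ (amp ι T₀)) = cj Φ (amp ι T₀) := by
    refine ContinuousLinearMap.ext fun x => ?_
    change Φ (Φ₀.symm (Φ₀ (amp ι T₀ (Φ₀.symm (Φ₀ (Φ.symm x)))))) = Φ (amp ι T₀ (Φ.symm x))
    rw [Φ₀.symm_apply_apply, Φ₀.symm_apply_apply]
  rw [h1]
  exact hΦ

end Vale.Agent.P131.H97
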