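import Vale.Agent.P131.H97.Idem
import Mathlib.Analysis.Normed.Ring.Units
import Mathlib.RingTheory.RootsOfUnity.Complex
import Mathlib.Analysis.SpecialFunctions.Trigonometric.Bounds

/-!
Averages of the resolvent over roots of unity are almost idempotent.
-/

namespace Vale.Agent.P131.H97

open Filter Topology

section circ

variable {R : Type*} [NormedRing R] [NormedAlgebra ℂ R]

lemma sum_roots {n : ℕ} (hn : n ≠ 0) {ζ : ℂ} (hζ : IsPrimitiveRoot ζ n) {k : ℕ} (hk : k < n) :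
    ∑ j ∈ Finset.range n, (ζ ^ j) ^ k = if k = 0 then (n : ℂ) else 0 := by
  split_ifs with h
  · subst h
    simp
  · have h1 : ζ ^ k ≠ 1 := hζ.pow_ne_one_of_pos_of_lt h hk
    have h2 : (∑ j ∈ Finset.range n, (ζ ^ k) ^ j) * (ζ ^ k - 1) = (ζ ^ k) ^ n - 1 :=
      geom_sum_mul _ _
    have h3 : (ζ ^ k) ^ n = 1 := by rw [← pow_mul, mul_comm, pow_mul, hζ.pow_eq_one, one_pow]
    rw [h3, sub_self] at h2
    have h4 := (mul_eq_zero.1 h2).resolve_right (sub_ne_zero.2 h1)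
    rw [← h4]
    refine Finset.sum_congr rfl fun j _ => ?_
    rw [← pow_mul, ← pow_mul, mul_comm]

/-- the resolvent of `B` on the circle -/
noncomputable def res (B : R) (ω : ℂ) : R := Ring.inverse (1 - ω • B)

/-- the average of the resolvent -/
noncomputable def avg (B : R) (n : ℕ) (η : ℂ) : R :=
  (n : ℂ)⁻¹ • ∑ j ∈ Finset.range n, res B (η * Complex.exp (2 * Real.pi * Complex.I / n) ^ j)

lemma norm_root {n : ℕ} (hn : n ≠ 0) {ζ : ℂ} (hζ : IsPrimitiveRoot ζ n) {η : ℂ} (hη : ‖η‖ = 1)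
    (j : ℕ) : ‖η * ζ ^ j‖ = 1 := by
  rw [norm_mul, hη, norm_pow, hζ.norm'_eq_one hn, one_pow, one_mul]

lemma avg_left {B : R} (hB : ∀ ω : ℂ, ‖ω‖ = 1 → IsUnit (1 - ω • B)) {n : ℕ} (hn : n ≠ 0) {η : ℂ}
    (hη : ‖η‖ = 1) : (1 - η ^ n • B ^ n) * avg B n η = 1 := by
  have hζ := Complex.isPrimitiveRoot_exp n hn
  set ζ := Complex.exp (2 * Real.pi * Complex.I / n) with hζd
  have h1 : ∀ j, (1 - η ^ n • B ^ n) * res B (η * ζ ^ j) =
      ∑ k ∈ Finset.range n, (η * ζ ^ j) ^ k • B ^ k := by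
    intro j
    have h2 : (η * ζ ^ j) ^ n = η ^ n := by
      rw [mul_pow, ← pow_mul, mul_comm j, pow_mul, hζ.pow_eq_one, one_pow, mul_one]
    have h3 : (1 - η ^ n • B ^ n) = (∑ k ∈ Finset.range n, ((η * ζ ^ j) • B) ^ k) *
        (1 - (η * ζ ^ j) • B) := by
      rw [geom_sum_mul_neg, smul_pow, h2]
    rw [h3, res, mul_assoc, Ring.mul_inverse_cancel _ (hB _ (norm_root hn hζ hη j)), mul_one]
    exact Finset.sum_congr rfl fun k _ => smul_pow _ _ _
  have h2 : ∑ j ∈ Finset.range n, ∑ k ∈ Finset.range n, (η * ζ ^ j) ^ k • B ^ k =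
      (n : ℂ) • (1 : R) := by
    rw [Finset.sum_comm]
    have h3 : ∀ k ∈ Finset.range n, ∑ j ∈ Finset.range n, (η * ζ ^ j) ^ k • B ^ k =
        if k = 0 then (n : ℂ) • (1 : R) else 0 := by
      intro k hk
      rw [← Finset.sum_smul]
      have h4 : ∑ j ∈ Finset.range n, (η * ζ ^ j) ^ k =
          η ^ k * ∑ j ∈ Finset.range n, (ζ ^ j) ^ k := by
        rw [Finset.mul_sum]
        exact Finset.sum_congr rfl fun j _ => mul_pow _ _ _
      rw [h4, sum_roots hn hζ (Finset.mem_range.1 hk)]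
      split_ifs with h
      · subst h; simp
      · simp
    rw [Finset.sum_congr rfl h3, Finset.sum_ite_eq']
    simp [Nat.pos_of_ne_zero hn]
  rw [avg, mul_smul_comm, Finset.mul_sum, Finset.sum_congr rfl fun j _ => h1 j, h2, smul_smul,
    inv_mul_cancel₀ (by exact_mod_cast hn), one_smul]

lemma avg_right {B : R} (hB : ∀ ω : ℂ, ‖ω‖ = 1 → IsUnit (1 - ω • B)) {n : ℕ} (hn : n ≠ 0) {η : ℂ}
    (hη : ‖η‖ = 1) : avg B n η * (1 - η ^ n • B ^ n) = 1 := by
  have hζ := Complex.isPrimitiveRoot_exp n hn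
  have hc : ∀ ω : ℂ, ‖ω‖ = 1 → Commute (res B ω) B := by
    intro ω hω
    have h1 : Commute B (1 - ω • B) :=
      (Commute.one_right B).sub_right ((Commute.refl B).smul_right ω)
    have h2 : (1 - ω • B) * res B ω = 1 := Ring.mul_inverse_cancel _ (hB ω hω)
    have h3 : res B ω * (1 - ω • B) = 1 := Ring.inverse_mul_cancel _ (hB ω hω)
    calc res B ω * B = res B ω * B * ((1 - ω • B) * res B ω) := by rw [h2, mul_one]
      _ = res B ω * (B * (1 - ω • B)) * res B ω := by simp only [mul_assoc]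
      _ = res B ω * ((1 - ω • B) * B) * res B ω := by rw [h1.eq]
      _ = (res B ω * (1 - ω • B)) * (B * res B ω) := by simp only [mul_assoc]
      _ = B * res B ω := by rw [h3, one_mul]
  have hc2 : Commute (avg B n η) B := by
    rw [avg]
    refine Commute.smul_left ?_ _
    exact Commute.sum_left _ _ _ fun j _ => hc _ (norm_root hn hζ hη j)
  have hc3 : Commute (avg B n η) (1 - η ^ n • B ^ n) :=
    (Commute.one_right _).sub_right ((hc2.pow_right n).smul_right _)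
  rw [hc3.eq]
  exact avg_left hB hn hη

lemma exists_res_bound [CompleteSpace R] {B : R} (hB : ∀ ω : ℂ, ‖ω‖ = 1 → IsUnit (1 - ω • B)) :
    ∃ C : ℝ, 0 ≤ C ∧ ∀ ω : ℂ, ‖ω‖ = 1 → ‖res B ω‖ ≤ C := by
  have h1 : ContinuousOn (res B) (Metric.sphere (0 : ℂ) 1) := by
    intro ω hω
    obtain ⟨u, hu⟩ := hB ω (by simpa using hω)
    have h2 : ContinuousAt Ring.inverse (1 - ω • B) := by
      rw [← hu]; exact NormedRing.inverse_continuousAt u
    have h3 : ContinuousAt (fun ω : ℂ => 1 - ω • B) ω := by fun_prop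
    exact (ContinuousAt.comp (f := fun ω : ℂ => 1 - ω • B) h2 h3).continuousWithinAt
  obtain ⟨C, hC⟩ := (isCompact_sphere (0 : ℂ) 1).exists_bound_of_continuousOn h1
  exact ⟨max C 0, le_max_right _ _, fun ω hω => (hC ω (by simpa using hω)).trans (le_max_left _ _)⟩

lemma norm_avg_le {B : R} {C : ℝ} (hC : ∀ ω : ℂ, ‖ω‖ = 1 → ‖res B ω‖ ≤ C)
    {n : ℕ} (hn : n ≠ 0) {η : ℂ} (hη : ‖η‖ = 1) : ‖avg B n η‖ ≤ C := by
  have hζ := Complex.isPrimitiveRoot_exp n hn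
  have hn' : (0 : ℝ) < n := by exact_mod_cast Nat.pos_of_ne_zero hn
  rw [avg, norm_smul, norm_inv, Complex.norm_natCast]
  have h1 : ‖∑ j ∈ Finset.range n,
      res B (η * Complex.exp (2 * Real.pi * Complex.I / n) ^ j)‖ ≤ n * C := by
    refine (norm_sum_le_of_le _ fun j _ => hC _ (norm_root hn hζ hη j)).trans ?_
    simp
  calc (n : ℝ)⁻¹ * _ ≤ (n : ℝ)⁻¹ * (n * C) := mul_le_mul_of_nonneg_left h1 (by positivity)
    _ = C := by field_simp

lemma res_sub {B : R} (hB : ∀ ω : ℂ, ‖ω‖ = 1 → IsUnit (1 - ω • B)) {ω ω' : ℂ} (hω : ‖ω‖ = 1)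
    (hω' : ‖ω'‖ = 1) : res B ω - res B ω' = res B ω * ((ω - ω') • B) * res B ω' := by
  have h1 : (1 - ω' • B) * res B ω' = 1 := Ring.mul_inverse_cancel _ (hB ω' hω')
  have h2 : res B ω * (1 - ω • B) = 1 := Ring.inverse_mul_cancel _ (hB ω hω)
  have h3 : (ω - ω') • B = (1 - ω' • B) - (1 - ω • B) := by rw [sub_smul]; abel
  rw [h3, mul_sub, sub_mul, h2, one_mul, mul_assoc, h1, mul_one]

lemma norm_avg_sub_le {B : R} (hB : ∀ ω : ℂ, ‖ω‖ = 1 → IsUnit (1 - ω • B)) {C : ℝ} (hC0 : 0 ≤ C)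
    (hC : ∀ ω : ℂ, ‖ω‖ = 1 → ‖res B ω‖ ≤ C) {n : ℕ} (hn : n ≠ 0) {η : ℂ} (hη : ‖η‖ = 1) :
    ‖avg B n η - avg B n 1‖ ≤ C * (‖η - 1‖ * ‖B‖) * C := by
  have hζ := Complex.isPrimitiveRoot_exp n hn
  have hn' : (0 : ℝ) < n := by exact_mod_cast Nat.pos_of_ne_zero hn
  rw [avg, avg, ← smul_sub, ← Finset.sum_sub_distrib, norm_smul, norm_inv, Complex.norm_natCast]
  set ζ := Complex.exp (2 * Real.pi * Complex.I / n) with hζd
  have h1 : ‖∑ j ∈ Finset.range n, (res B (η * ζ ^ j) - res B (1 * ζ ^ j))‖ ≤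
      n * (C * (‖η - 1‖ * ‖B‖) * C) := by
    refine (norm_sum_le_of_le (f := fun j => res B (η * ζ ^ j) - res B (1 * ζ ^ j))
      (n := fun _ => C * (‖η - 1‖ * ‖B‖) * C) _ fun j _ => ?_).trans (by simp)
    have ha := norm_root hn hζ hη j
    have hb := norm_root hn hζ (norm_one (α := ℂ)) j
    rw [res_sub hB ha hb]
    have h2 : ‖(η * ζ ^ j - 1 * ζ ^ j) • B‖ ≤ ‖η - 1‖ * ‖B‖ := by
      rw [norm_smul, ← sub_mul, norm_mul, norm_pow, hζ.norm'_eq_one hn, one_pow, mul_one]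
    refine (norm_mul_le _ _).trans (mul_le_mul ?_ (hC _ hb) (norm_nonneg _) (by positivity))
    exact (norm_mul_le _ _).trans (mul_le_mul (hC _ ha) h2 (norm_nonneg _) hC0)
  calc (n : ℝ)⁻¹ * _ ≤ (n : ℝ)⁻¹ * (n * (C * (‖η - 1‖ * ‖B‖) * C)) :=
        mul_le_mul_of_nonneg_left h1 (by positivity)
    _ = _ := by field_simp

/-- the averages are bounded and almost idempotent -/
theorem exists_almost_idem [CompleteSpace R] {B : R}
    (hB : ∀ ω : ℂ, ‖ω‖ = 1 → IsUnit (1 - ω • B)) : ∃ C : ℝ, 0 ≤ C ∧ ∀ δ : ℝ, 0 < δ →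
    ∃ (n : ℕ) (S : R), n ≠ 0 ∧ (1 - B ^ n) * S = 1 ∧ S * (1 - B ^ n) = 1 ∧ ‖S‖ ≤ C ∧
      ‖S * S - S‖ ≤ δ := by
  obtain ⟨C, hC0, hC⟩ := exists_res_bound hB
  refine ⟨C, hC0, fun δ hδ => ?_⟩
  set K := (1 + 2 * C) * (C * (Real.pi * ‖B‖) * C) with hK
  have hK0 : 0 ≤ K := by positivity
  obtain ⟨n, hn⟩ := exists_nat_gt (K / δ)
  have hn0 : (0 : ℝ) < n := lt_of_le_of_lt (by positivity) hn
  have hn1 : n ≠ 0 := by rintro rfl; simp at hn0
  have hn' : (n : ℂ) ≠ 0 := by exact_mod_cast hn1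
  set ξ := Complex.exp (Complex.I * ((Real.pi / n : ℝ) : ℂ)) with hξ
  have hξn : ‖ξ‖ = 1 := by rw [hξ, mul_comm]; exact Complex.norm_exp_ofReal_mul_I _
  have hξ1 : ‖ξ - 1‖ ≤ Real.pi / n := by
    refine (Real.norm_exp_I_mul_ofReal_sub_one_le).trans ?_
    rw [Real.norm_eq_abs, abs_of_nonneg (by positivity)]
  have hξp : ξ ^ n = -1 := by
    rw [hξ, ← Complex.exp_nat_mul, ← Complex.exp_pi_mul_I]
    congr 1
    push_cast
    field_simp
  have h1 := avg_left hB hn1 (norm_one (α := ℂ))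
  have h2 := avg_right hB hn1 (norm_one (α := ℂ))
  have h3 := avg_left hB hn1 hξn
  rw [one_pow, one_smul] at h1 h2
  rw [hξp, neg_smul, one_smul, sub_neg_eq_add] at h3
  have h4 := norm_avg_le hC hn1 (norm_one (α := ℂ))
  have h5 := norm_avg_sub_le hB hC0 hC hn1 hξn
  set S := avg B n 1 with hS
  set S' := avg B n ξ with hS'
  refine ⟨n, S, hn1, h1, h2, h4, ?_⟩
  have h6 : 2 • (S * S') = S + S' := by
    have h7 : S * ((1 - B ^ n) + (1 + B ^ n)) * S' = S' + S := by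
      rw [mul_add, h2, add_mul, one_mul, mul_assoc, h3, mul_one]
    have h8 : S * ((1 - B ^ n) + (1 + B ^ n)) * S' = 2 • (S * S') := by noncomm_ring
    rw [← h8, h7, add_comm]
  have h7 : 2 • (S * S - S) = (S' - S) - 2 • (S * (S' - S)) := by
    have h8 : (S' - S) - 2 • (S * (S' - S)) = 2 • (S * S) + S' - S - 2 • (S * S') := by
      noncomm_ring
    rw [h8, h6]
    abel
  have h8 : ‖2 • (S * S - S)‖ = 2 * ‖S * S - S‖ := by
    have : (2 • (S * S - S) : R) = (2 : ℂ) • (S * S - S) := by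
      rw [two_smul, two_smul]
    rw [this, norm_smul]
    norm_num
  have h9 : ‖S' - S‖ ≤ C * (Real.pi * ‖B‖) * C / n := by
    refine h5.trans ?_
    calc C * (‖ξ - 1‖ * ‖B‖) * C ≤ C * (Real.pi / n * ‖B‖) * C := by gcongr
      _ = C * (Real.pi * ‖B‖) * C / n := by ring
  have h10 : 2 * ‖S * S - S‖ ≤ (1 + 2 * C) * (C * (Real.pi * ‖B‖) * C / n) := by
    rw [← h8, h7]
    refine (norm_sub_le _ _).trans ?_
    have h11 : ‖2 • (S * (S' - S))‖ ≤ 2 * (C * ‖S' - S‖) := by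
      refine (norm_nsmul_le).trans ?_
      push_cast
      refine mul_le_mul_of_nonneg_left ?_ (by norm_num)
      exact (norm_mul_le _ _).trans (mul_le_mul_of_nonneg_right h4 (norm_nonneg _))
    have h12 : 0 ≤ 1 + 2 * C := by linarith
    nlinarith [mul_le_mul_of_nonneg_left h9 h12]
  have h13 : (1 + 2 * C) * (C * (Real.pi * ‖B‖) * C / n) = K / n := by rw [hK]; ring
  rw [h13] at h10
  have h14 : K / n < δ := by
    rw [div_lt_iff₀ hδ] at hn
    rw [div_lt_iff₀ hn0]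
    linarith
  linarith [norm_nonneg (S * S - S)]

end circ

end Vale.Agent.P131.H97
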