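import Vale.Agent.P131.H97.Gen

/-!
From one-point spectrum to the decay of the powers, translations, and the density theorem.
-/

namespace Vale.Agent.P131.H97

open Module TopologicalSpace Vale.Agent.P131 Vale.Agent.P131.H856
open scoped ENNReal

universe u

section

variable {H : Type u} [NormedAddCommGroup H] [InnerProductSpace ℂ H]

lemma qn_of_spectrum [CompleteSpace H] {Q : H →L[ℂ] H} (hQ : spectrum ℂ Q = {0}) : QN Q := by
  intro L hL
  have hr : spectralRadius ℂ Q = 0 := by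
    rw [spectralRadius, hQ]
    simp
  have h1 := spectrum.pow_norm_pow_one_div_tendsto_nhds_spectralRadius Q
  rw [hr] at h1
  have h2 : ∀ᶠ n : ℕ in Filter.atTop, ENNReal.ofReal (‖Q ^ n‖ ^ (1 / n : ℝ)) <
      ENNReal.ofReal (Real.exp (-L)) :=
    h1.eventually_lt_const (by simpa using Real.exp_pos (-L))
  obtain ⟨N, hN⟩ := Filter.eventually_atTop.1 h2
  have h3 : ∀ n, N ≤ n → 0 < n → ‖Q ^ n‖ ≤ Real.exp (-L * n) := by
    intro n hn hn0
    have h4 := (ENNReal.ofReal_lt_ofReal_iff (Real.exp_pos _)).1 (hN n hn)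
    have hn' : (0 : ℝ) < n := by exact_mod_cast hn0
    have h5 : (‖Q ^ n‖ ^ (1 / n : ℝ)) ^ (n : ℝ) ≤ Real.exp (-L) ^ (n : ℝ) :=
      Real.rpow_le_rpow (by positivity) h4.le hn'.le
    rw [← Real.rpow_mul (norm_nonneg _), one_div, inv_mul_cancel₀ hn'.ne', Real.rpow_one,
      ← Real.exp_mul] at h5
    exact h5
  have hs : 0 ≤ ∑ k ∈ Finset.range (N + 1), ‖Q ^ k‖ :=
    Finset.sum_nonneg fun _ _ => norm_nonneg _
  set s := ∑ k ∈ Finset.range (N + 1), ‖Q ^ k‖ with hsdef
  refine ⟨L * (N + 1) + Real.log (1 + s), fun k x => ?_⟩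
  refine (ContinuousLinearMap.le_opNorm _ _).trans
    (mul_le_mul_of_nonneg_right ?_ (norm_nonneg _))
  have hlog : 0 ≤ Real.log (1 + s) := Real.log_nonneg (by linarith)
  by_cases hk : k < N + 1
  · have h6 : ‖Q ^ k‖ ≤ s :=
      Finset.single_le_sum (f := fun k => ‖Q ^ k‖) (fun _ _ => norm_nonneg _)
        (Finset.mem_range.2 hk)
    have hkN : (k : ℝ) ≤ N + 1 := by exact_mod_cast hk.le
    have h7 : L * k ≤ L * (N + 1) := mul_le_mul_of_nonneg_left hkN hL
    calc ‖Q ^ k‖ ≤ 1 + s := by linarith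
      _ = Real.exp (Real.log (1 + s)) := (Real.exp_log (by linarith)).symm
      _ ≤ _ := Real.exp_le_exp.2 (by linarith)
  · push Not at hk
    refine (h3 k (by omega) (by omega)).trans (Real.exp_le_exp.2 ?_)
    have : 0 ≤ L * (N + 1) := by positivity
    linarith

lemma comp_add_scalar {T A : H →L[ℂ] H} {z : ℂ} :
    A ∘L (T + z • ContinuousLinearMap.id ℂ H) = (T + z • ContinuousLinearMap.id ℂ H) ∘L A ↔
      A ∘L T = T ∘L A := by
  constructor
  · intro h
    ext x
    have h1 := congrArg (fun B : H →L[ℂ] H => B x) h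
    simpa using h1
  · intro h
    ext x
    have h1 := congrArg (fun B : H →L[ℂ] H => B x) h
    simpa using h1

lemma tc_add_scalar {T : H →L[ℂ] H} (h : TC T) (z : ℂ) :
    TC (T + z • ContinuousLinearMap.id ℂ H) := by
  refine ⟨fun w hw => h.1 (w - z) ?_, fun M hM hA => h.2 M hM fun A hAT x hx => ?_⟩
  · rw [sub_smul, ← hw, add_sub_cancel_right]
  · exact hA A (comp_add_scalar.2 hAT) x hx

/-- norm density among the operators with one-point spectrum -/
theorem one_point_dense [CompleteSpace H] (hH : ¬ FiniteDimensional ℂ H) {A : H →L[ℂ] H} {z : ℂ}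
    (hA : spectrum ℂ A = {z}) {ε : ℝ} (hε : 0 < ε) :
    ∃ T : H →L[ℂ] H, TC T ∧ spectrum ℂ T = {z} ∧ ‖T - A‖ < ε := by
  have hnt : Nontrivial H := by
    by_contra hcon
    rw [not_nontrivial_iff_subsingleton] at hcon
    exact hH inferInstance
  have halg : ∀ w : ℂ, algebraMap ℂ (H →L[ℂ] H) w = w • ContinuousLinearMap.id ℂ H := fun w => by
    rw [Algebra.algebraMap_eq_smul_one]
    rfl
  have h1 : spectrum ℂ (A + (-z) • ContinuousLinearMap.id ℂ H) = {0} := by
    rw [← halg, ← spectrum.add_singleton_eq, hA, Set.singleton_add_singleton, add_neg_cancel]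
  obtain ⟨T, hT1, hT2, hT3⟩ := qn_dense_all hH (qn_of_spectrum h1) (half_pos hε)
  refine ⟨T + z • ContinuousLinearMap.id ℂ H, tc_add_scalar hT1 z, ?_, ?_⟩
  · rw [← halg, ← spectrum.add_singleton_eq, hT2.spectrum_eq, Set.singleton_add_singleton, zero_add]
  · have h2 : T + z • ContinuousLinearMap.id ℂ H - A =
        T - (A + (-z) • ContinuousLinearMap.id ℂ H) := by
      rw [neg_smul]; abel
    rw [h2]
    linarith

end

end Vale.Agent.P131.H97
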