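import Vale.Agent.P131.H97.Circ
import Vale.Agent.P131.H97.Spec
import Mathlib.Analysis.Normed.Operator.ContinuousLinearMap

/-!
Norm limits of operators without hyperinvariant subspaces: no circle separates the spectrum.
-/

namespace Vale.Agent.P131.H97

open Filter Topology Vale.Agent.P131 Vale.Agent.P131.H856

section ring

variable {R : Type*} [NormedRing R] [NormedAlgebra ℂ R] [CompleteSpace R]

/-- elements without nontrivial idempotent in the bicommutant -/
def NoIdem (R : Type*) [NormedRing R] : Set R :=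
  {T | ∀ P : R, P * P = P → (∀ C, C * T = T * C → C * P = P * C) → P = 0 ∨ P = 1}

lemma comm_inv {T S C : R} {n : ℕ} (h1 : (1 - T ^ n) * S = 1) (h2 : S * (1 - T ^ n) = 1)
    (hC : C * T = T * C) : C * S = S * C := by
  have h3 : Commute C (1 - T ^ n) :=
    (Commute.one_right C).sub_right (Commute.pow_right (show Commute C T from hC) n)
  calc C * S = (S * (1 - T ^ n)) * (C * S) := by rw [h2, one_mul]
    _ = S * ((1 - T ^ n) * C) * S := by simp only [mul_assoc]
    _ = S * (C * (1 - T ^ n)) * S := by rw [h3.eq]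
    _ = (S * C) * ((1 - T ^ n) * S) := by simp only [mul_assoc]
    _ = S * C := by rw [h1, mul_one]

theorem near_idem {B : R} (hB : ∀ ω : ℂ, ‖ω‖ = 1 → IsUnit (1 - ω • B))
    (hcl : B ∈ closure (NoIdem R)) :
    ∃ (n : ℕ) (S : R), n ≠ 0 ∧ (1 - B ^ n) * S = 1 ∧ S * (1 - B ^ n) = 1 ∧
      (‖S‖ < 1 / 2 ∨ ‖1 - S‖ < 1 / 2) := by
  obtain ⟨C, hC0, hC⟩ := exists_almost_idem hB
  set K := ‖(1 : R)‖ + 2 * C + 1 with hK
  have hK0 : 0 < K := by positivity
  obtain ⟨n, S, hn, h1, h2, h3, h4⟩ := hC (1 / (64 * K + 64)) (by positivity)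
  refine ⟨n, S, hn, h1, h2, ?_⟩
  let u : Rˣ := ⟨1 - B ^ n, S, h1, h2⟩
  have hcont : ContinuousAt (fun T : R => Ring.inverse (1 - T ^ n)) B := by
    have h5 : ContinuousAt Ring.inverse (1 - B ^ n) := NormedRing.inverse_continuousAt u
    have h6 : ContinuousAt (fun T : R => 1 - T ^ n) B := by fun_prop
    exact ContinuousAt.comp (f := fun T : R => 1 - T ^ n) h5 h6
  have hval : Ring.inverse (1 - B ^ n) = S := Ring.inverse_unit u
  set g : R → R := fun T => Ring.inverse (1 - T ^ n) with hg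
  have hgB : g B = S := hval
  have hu : ∀ᶠ T in 𝓝 B, IsUnit (1 - T ^ n) := by
    have h6 : ContinuousAt (fun T : R => 1 - T ^ n) B := by fun_prop
    exact h6.eventually (Units.nhds u)
  have hgt : Tendsto g (𝓝 B) (𝓝 S) := by rw [← hgB]; exact hcont
  have e1 : ∀ᶠ T in 𝓝 B, ‖g T * g T - g T‖ < 1 / (32 * K + 32) := by
    have h7 : Tendsto (fun T => ‖g T * g T - g T‖) (𝓝 B) (𝓝 ‖S * S - S‖) :=
      ((hgt.mul hgt).sub hgt).norm
    refine h7.eventually_lt_const (lt_of_le_of_lt h4 ?_)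
    exact one_div_lt_one_div_of_lt (by positivity) (by nlinarith)
  have e2 : ∀ᶠ T in 𝓝 B, ‖1 - 2 • g T‖ < K := by
    have h7 : Tendsto (fun T => ‖1 - 2 • g T‖) (𝓝 B) (𝓝 ‖1 - 2 • S‖) :=
      (tendsto_const_nhds.sub (hgt.const_smul 2)).norm
    refine h7.eventually_lt_const ?_
    have h8 : ‖(2 • S : R)‖ ≤ 2 * C := by
      refine (norm_nsmul_le).trans ?_
      push_cast
      linarith
    have h9 := norm_sub_le (1 : R) (2 • S)
    rw [hK]
    linarith
  have e3 : ∀ᶠ T in 𝓝 B, ‖g T - S‖ < 1 / 8 := by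
    have h7 : Tendsto (fun T => ‖g T - S‖) (𝓝 B) (𝓝 ‖S - S‖) := (hgt.sub_const S).norm
    refine h7.eventually_lt_const ?_
    rw [sub_self, norm_zero]
    norm_num
  obtain ⟨T, hT, hTu, hT1, hT2, hT3⟩ := ((mem_closure_iff_frequently.1 hcl).and_eventually
    (hu.and (e1.and (e2.and e3)))).exists
  have hg1 : (1 - T ^ n) * g T = 1 := Ring.mul_inverse_cancel _ hTu
  have hg2 : g T * (1 - T ^ n) = 1 := Ring.inverse_mul_cancel _ hTu
  have hx : (1 : ℝ) / (32 * K + 32) ≤ 1 / 16 :=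
    one_div_le_one_div_of_le (by norm_num) (by linarith)
  obtain ⟨P, hP1, hP2, hP3⟩ := exists_idem (hT1.le.trans hx)
  have hP4 : ‖P - g T‖ ≤ 1 / 8 := by
    refine hP2.trans ?_
    have h5 : ‖1 - 2 • g T‖ * ‖g T * g T - g T‖ ≤ K * (1 / (32 * K + 32)) :=
      mul_le_mul hT2.le hT1.le (norm_nonneg _) hK0.le
    have h6 : K * (1 / (32 * K + 32)) ≤ 1 / 32 := by
      rw [mul_one_div, div_le_div_iff₀ (by positivity) (by norm_num)]
      linarith
    linarith
  have hP5 : ‖P - S‖ < 1 / 2 := by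
    have h5 := norm_add_le (P - g T) (g T - S)
    rw [sub_add_sub_cancel] at h5
    linarith
  rcases hT P hP1 (fun D hD => hP3 D (comm_inv hg1 hg2 hD)) with h | h
  · left
    rw [h, zero_sub, norm_neg] at hP5
    exact hP5
  · right
    rw [h] at hP5
    exact hP5

theorem dichotomy {B : R} (hB : ∀ ω : ℂ, ‖ω‖ = 1 → IsUnit (1 - ω • B))
    (hcl : B ∈ closure (NoIdem R)) :
    (∀ w ∈ spectrum ℂ B, ‖w‖ < 1) ∨ (∀ w ∈ spectrum ℂ B, 1 < ‖w‖) := by
  obtain ⟨n, S, hn, h1, h2, h3⟩ := near_idem hB hcl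
  have hu : IsUnit (1 - B ^ n) := ⟨⟨1 - B ^ n, S, h1, h2⟩, rfl⟩
  rcases h3 with h3 | h3
  · right
    intro w hw
    by_contra hcon
    push Not at hcon
    have hw' : w ^ n ∈ spectrum ℂ (B ^ n) := spectrum.pow_mem_pow B n hw
    have hμ : ‖w ^ n‖ ≤ 1 := by rw [norm_pow]; exact pow_le_one₀ (norm_nonneg _) hcon
    set μ := w ^ n with hμd
    have h4 : ‖(1 - μ) • S‖ < 1 := by
      rw [norm_smul]
      have h5 : ‖1 - μ‖ ≤ 2 := (norm_sub_le _ _).trans (by rw [norm_one]; linarith)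
      nlinarith [norm_nonneg S, norm_nonneg (1 - μ)]
    have h5 : algebraMap ℂ R μ - B ^ n = (1 - B ^ n) * (1 - (1 - μ) • S) := by
      rw [mul_sub, mul_one, mul_smul_comm, h1, Algebra.algebraMap_eq_smul_one, sub_smul, one_smul]
      abel
    have h6 : IsUnit (algebraMap ℂ R μ - B ^ n) := by
      rw [h5]
      exact hu.mul (isUnit_one_sub_of_norm_lt_one h4)
    exact (spectrum.mem_iff.1 hw') h6
  · left
    intro w hw
    by_contra hcon
    push Not at hcon
    have hw' : w ^ n ∈ spectrum ℂ (B ^ n) := spectrum.pow_mem_pow B n hw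
    have hμ : 1 ≤ ‖w ^ n‖ := by rw [norm_pow]; exact one_le_pow₀ hcon
    set μ := w ^ n with hμd
    have hμ0 : μ ≠ 0 := by
      intro h0
      rw [h0, norm_zero] at hμ
      linarith
    have hc : ‖(μ - 1) / μ‖ ≤ 2 := by
      rw [norm_div, div_le_iff₀ (norm_pos_iff.2 hμ0)]
      have := norm_sub_le μ 1
      rw [norm_one] at this
      linarith
    have h4 : ‖((μ - 1) / μ) • (1 - S)‖ < 1 := by
      rw [norm_smul]
      nlinarith [norm_nonneg (1 - S), norm_nonneg ((μ - 1) / μ)]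
    have h5 : algebraMap ℂ R μ - B ^ n =
        (1 - B ^ n) * (algebraMap ℂ R μ * (1 - ((μ - 1) / μ) • (1 - S))) := by
      have h7 : algebraMap ℂ R μ * (1 - ((μ - 1) / μ) • (1 - S)) = 1 + (μ - 1) • S := by
        rw [Algebra.algebraMap_eq_smul_one, smul_mul_assoc, one_mul, smul_sub, smul_smul,
          mul_div_cancel₀ _ hμ0, smul_sub, sub_smul μ 1 (1 : R), one_smul]
        abel
      rw [h7, mul_add, mul_one, mul_smul_comm, h1, Algebra.algebraMap_eq_smul_one, sub_smul,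
        one_smul]
      abel
    have h6 : IsUnit (algebraMap ℂ R μ - B ^ n) := by
      rw [h5]
      refine hu.mul (IsUnit.mul ?_ (isUnit_one_sub_of_norm_lt_one h4))
      exact (isUnit_iff_ne_zero.2 hμ0).map (algebraMap ℂ R)
    exact (spectrum.mem_iff.1 hw') h6

/-- no circle in the resolvent set separates the spectrum of a limit of such elements -/
theorem circle_dichotomy {A : R} (hcl : A ∈ closure (NoIdem R)) {a : ℂ} {r : ℝ} (hr : 0 < r)
    (hd : ∀ w ∈ spectrum ℂ A, ‖w - a‖ ≠ r) :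
    (∀ w ∈ spectrum ℂ A, ‖w - a‖ < r) ∨ (∀ w ∈ spectrum ℂ A, r < ‖w - a‖) := by
  have hrc : (r : ℂ) ≠ 0 := by exact_mod_cast hr.ne'
  let φ : R → R := fun T => (r : ℂ)⁻¹ • (T - algebraMap ℂ R a)
  have hφc : Continuous φ := by fun_prop
  have hcomm : ∀ T C : R, C * φ T = φ T * C ↔ C * T = T * C := by
    intro T C
    have h1 : C * φ T - φ T * C = (r : ℂ)⁻¹ • (C * T - T * C) := by
      simp only [φ]
      rw [mul_smul_comm, smul_mul_assoc, ← smul_sub, mul_sub, sub_mul, Algebra.commutes a C]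
      congr 1
      abel
    rw [← sub_eq_zero, h1, smul_eq_zero_iff_right (inv_ne_zero hrc), sub_eq_zero]
  have hφN : Set.MapsTo φ (NoIdem R) (NoIdem R) := by
    intro T hT P hP hPC
    exact hT P hP fun C hC => hPC C ((hcomm T C).2 hC)
  have hBcl : φ A ∈ closure (NoIdem R) := map_mem_closure hφc hcl hφN
  have hunit : ∀ v : ℂ, algebraMap ℂ R v - φ A =
      (r : ℂ)⁻¹ • (algebraMap ℂ R (a + r * v) - A) := by
    intro v
    have h1 : (r : ℂ)⁻¹ * (a + r * v) = (r : ℂ)⁻¹ * a + v := by field_simp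
    simp only [φ, Algebra.algebraMap_eq_smul_one]
    rw [smul_sub, smul_sub, smul_smul, smul_smul, h1, add_smul]
    abel
  have hiff : ∀ (c : ℂ) (x : R), c ≠ 0 → (IsUnit (c • x) ↔ IsUnit x) := fun c x hc =>
    isUnit_smul_iff (Units.mk0 c hc) x
  have hunit' : ∀ v : ℂ, IsUnit (algebraMap ℂ R v - φ A) ↔
      IsUnit (algebraMap ℂ R (a + r * v) - A) := fun v => by
    rw [hunit, hiff _ _ (inv_ne_zero hrc)]
  have hB : ∀ ω : ℂ, ‖ω‖ = 1 → IsUnit (1 - ω • φ A) := by
    intro ω hω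
    have hω0 : ω ≠ 0 := by rintro rfl; simp at hω
    have h1 : 1 - ω • φ A = ω • (algebraMap ℂ R ω⁻¹ - φ A) := by
      have h2 : ω • algebraMap ℂ R ω⁻¹ = 1 := by
        rw [Algebra.algebraMap_eq_smul_one, smul_smul, mul_inv_cancel₀ hω0, one_smul]
      rw [smul_sub, h2]
    rw [h1, hiff _ _ hω0, hunit']
    by_contra hcon
    refine hd _ (spectrum.mem_iff.2 hcon) ?_
    rw [add_sub_cancel_left, norm_mul, norm_inv, hω, inv_one, mul_one, Complex.norm_real,
      Real.norm_eq_abs, abs_of_pos hr]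
  have hmap : ∀ w ∈ spectrum ℂ A, (r : ℂ)⁻¹ * (w - a) ∈ spectrum ℂ (φ A) := by
    intro w hw
    rw [spectrum.mem_iff, hunit']
    have h1 : a + r * ((r : ℂ)⁻¹ * (w - a)) = w := by field_simp; ring
    rw [h1]
    exact spectrum.mem_iff.1 hw
  have hnorm : ∀ w : ℂ, ‖(r : ℂ)⁻¹ * (w - a)‖ = ‖w - a‖ / r := by
    intro w
    rw [norm_mul, norm_inv, Complex.norm_real, Real.norm_eq_abs, abs_of_pos hr, inv_mul_eq_div]
  rcases dichotomy hB hBcl with h | h
  · left
    intro w hw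
    have h1 := h _ (hmap w hw)
    rwa [hnorm, div_lt_one hr] at h1
  · right
    intro w hw
    have h1 := h _ (hmap w hw)
    rwa [hnorm, one_lt_div hr] at h1

/-- a limit of such elements with countable spectrum has one-point spectrum -/
theorem single_of_closure [Nontrivial R] {A : R} (hcl : A ∈ closure (NoIdem R))
    (hc : (spectrum ℂ A).Countable) : ∃ z : ℂ, spectrum ℂ A = {z} := by
  obtain ⟨a, ha⟩ := spectrum.nonempty (A := R) A
  refine ⟨a, Set.Subset.antisymm (fun b hb => ?_) (Set.singleton_subset_iff.2 ha)⟩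
  by_contra hba
  have hpos : 0 < ‖b - a‖ := norm_pos_iff.2 (sub_ne_zero.2 hba)
  have h1 : ((fun w : ℂ => ‖w - a‖) '' spectrum ℂ A).Countable := hc.image _
  have h2 : ¬ (Set.Ioo 0 ‖b - a‖).Countable := by
    rw [← Cardinal.le_aleph0_iff_set_countable, Cardinal.mk_Ioo_real hpos, not_le]
    exact Cardinal.aleph0_lt_continuum
  obtain ⟨r, hr1, hr2⟩ : ∃ r ∈ Set.Ioo 0 ‖b - a‖, r ∉ (fun w : ℂ => ‖w - a‖) '' spectrum ℂ A := by
    by_contra hcon
    push Not at hcon
    exact h2 (h1.mono hcon)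
  rcases circle_dichotomy hcl hr1.1 (fun w hw h => hr2 ⟨w, hw, h⟩) with h | h
  · exact absurd (h b hb) (not_lt.2 hr1.2.le)
  · have := h a ha
    rw [sub_self, norm_zero] at this
    exact absurd this (not_lt.2 hr1.1.le)

end ring

section op

universe u

variable {H : Type u} [NormedAddCommGroup H] [InnerProductSpace ℂ H]

lemma TC_noIdem {T : H →L[ℂ] H} (h : TC T) : T ∈ NoIdem (H →L[ℂ] H) := by
  intro P hP hC
  have hPP : ∀ x, P (P x) = P x := fun x => congrArg (fun B : H →L[ℂ] H => B x) hP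
  let M : Submodule ℂ H := LinearMap.ker ((P - 1 : H →L[ℂ] H) : H →ₗ[ℂ] H)
  have hmem : ∀ x, x ∈ M ↔ P x = x := fun x => by
    change P x - x = 0 ↔ _
    rw [sub_eq_zero]
  have hM : IsClosed (M : Set H) := (P - 1).isClosed_ker
  rcases h.2 M hM (fun A hA x hx => by
      rw [hmem] at hx ⊢
      have h1 := congrArg (fun B : H →L[ℂ] H => B x) (hC A hA)
      change A (P x) = P (A x) at h1
      rw [← h1, hx]) with h1 | h1
  · left
    ext x
    have h2 : P x ∈ M := (hmem _).2 (hPP x)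
    rw [h1, Submodule.mem_bot] at h2
    exact h2
  · right
    ext x
    have h2 : x ∈ M := by rw [h1]; trivial
    exact (hmem x).1 h2

theorem closure_iff [CompleteSpace H] (hH : ¬ FiniteDimensional ℂ H) {A : H →L[ℂ] H}
    (hc : (spectrum ℂ A).Countable) :
    A ∈ closure {T : H →L[ℂ] H | TC T} ↔ ∃ z : ℂ, spectrum ℂ A = {z} := by
  have hnt : Nontrivial H := by
    by_contra hcon
    rw [not_nontrivial_iff_subsingleton] at hcon
    exact hH inferInstance
  constructor
  · intro h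
    exact single_of_closure (closure_mono (fun T hT => TC_noIdem hT) h) hc
  · rintro ⟨z, hz⟩
    rw [Metric.mem_closure_iff]
    intro ε hε
    obtain ⟨T, h1, -, h2⟩ := one_point_dense hH hz hε
    exact ⟨T, h1, by rw [dist_comm, dist_eq_norm]; exact h2⟩

end op

end Vale.Agent.P131.H97
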