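import Vale.Agent.P131.H97.Abs2

/-!
Choice of the parameters.
-/

namespace Vale.Agent.P131.H97

open Module Filter Topology Vale.Agent.P131 Vale.Agent.P131.H856

lemma exists_small (D1 D2 : ℝ) {τ : ℝ} (hτ : 0 < τ) :
    ∃ n : ℕ, (D1 + ((n : ℝ) + 1) * D2) * (1 / 2) ^ n < τ := by
  have h1 : Tendsto (fun n : ℕ => (n : ℝ) ^ 0 * (1 / 2 : ℝ) ^ n) atTop (𝓝 0) :=
    tendsto_pow_const_mul_const_pow_of_abs_lt_one 0 (by rw [abs_lt]; constructor <;> norm_num)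
  have h2 : Tendsto (fun n : ℕ => (n : ℝ) ^ 1 * (1 / 2 : ℝ) ^ n) atTop (𝓝 0) :=
    tendsto_pow_const_mul_const_pow_of_abs_lt_one 1 (by rw [abs_lt]; constructor <;> norm_num)
  have h3 : Tendsto (fun n : ℕ => (D1 + D2) * ((n : ℝ) ^ 0 * (1 / 2 : ℝ) ^ n) +
      D2 * ((n : ℝ) ^ 1 * (1 / 2 : ℝ) ^ n)) atTop (𝓝 0) := by
    have := (h1.const_mul (D1 + D2)).add (h2.const_mul D2)
    simpa using this
  obtain ⟨n, hn⟩ := (h3.eventually (gt_mem_nhds hτ)).exists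
  refine ⟨n, lt_of_eq_of_lt ?_ hn⟩
  ring

lemma qn_pow_le {H : Type*} [NormedAddCommGroup H] [InnerProductSpace ℂ H] {N : H →L[ℂ] H}
    (hN : QN N) {ε : ℝ} (hε : 0 < ε) : ∃ C : ℝ, 0 < C ∧ ∀ k : ℕ, ‖N ^ k‖ ≤ C * (ε / 2) ^ k := by
  obtain ⟨K, hK⟩ := hN.norm_pow_le (L := max 0 (Real.log (2 / ε))) (le_max_left _ _)
  refine ⟨Real.exp K, Real.exp_pos _, fun k => (hK k).trans ?_⟩
  have h3 : Real.exp (-(max 0 (Real.log (2 / ε)))) ≤ ε / 2 := by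
    calc Real.exp (-(max 0 (Real.log (2 / ε)))) ≤ Real.exp (-Real.log (2 / ε)) :=
          Real.exp_le_exp.2 (neg_le_neg (le_max_right _ _))
      _ = ε / 2 := by
          rw [Real.exp_neg, Real.exp_log (by positivity), inv_div]
  calc Real.exp (K - max 0 (Real.log (2 / ε)) * k)
      = Real.exp K * Real.exp (-(max 0 (Real.log (2 / ε)))) ^ k := by
        rw [← Real.exp_nat_mul, ← Real.exp_add]
        congr 1
        ring
    _ ≤ Real.exp K * (ε / 2) ^ k :=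
        mul_le_mul_of_nonneg_left (pow_le_pow_left₀ (Real.exp_pos _).le h3 k) (Real.exp_pos _).le

lemma kappa_le {H : Type*} [NormedAddCommGroup H] [InnerProductSpace ℂ H] {N : H →L[ℂ] H}
    {ε C D : ℝ} (hε : 0 < ε) (hC : 0 < C) (hD : 0 ≤ D) (hpow : ∀ k : ℕ, ‖N ^ k‖ ≤ C * (ε / 2) ^ k)
    (n : ℕ) :
    ‖N ^ (n + 1)‖ + ∑ i ∈ Finset.range (n + 1), ‖N ^ i‖ * D * ‖N ^ (n - i)‖ ≤
      (C * (ε / 2) + ((n : ℝ) + 1) * (C * D * C)) * (ε / 2) ^ n := by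
  have h1 : ∑ i ∈ Finset.range (n + 1), ‖N ^ i‖ * D * ‖N ^ (n - i)‖ ≤
      ∑ i ∈ Finset.range (n + 1), (C * D * C) * (ε / 2) ^ n := by
    refine Finset.sum_le_sum fun i hi => ?_
    have hi' : i ≤ n := Nat.lt_succ_iff.1 (Finset.mem_range.1 hi)
    calc ‖N ^ i‖ * D * ‖N ^ (n - i)‖
        ≤ (C * (ε / 2) ^ i) * D * (C * (ε / 2) ^ (n - i)) := by
          refine mul_le_mul (mul_le_mul_of_nonneg_right (hpow i) hD) (hpow _)
            (norm_nonneg _) (by positivity)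
      _ = (C * D * C) * ((ε / 2) ^ i * (ε / 2) ^ (n - i)) := by ring
      _ = (C * D * C) * (ε / 2) ^ n := by
          rw [← pow_add, Nat.add_sub_cancel' hi']
  rw [Finset.sum_const, Finset.card_range, nsmul_eq_mul] at h1
  have h2 := hpow (n + 1)
  calc _ ≤ C * (ε / 2) ^ (n + 1) + ((n + 1 : ℕ) : ℝ) * ((C * D * C) * (ε / 2) ^ n) :=
        add_le_add h2 h1
    _ = _ := by push_cast; ring

lemma exists_n {H : Type*} [NormedAddCommGroup H] [InnerProductSpace ℂ H] {N : H →L[ℂ] H}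
    (hN : QN N) {ε D B τ : ℝ} (hε : 0 < ε) (hD : 0 ≤ D) (hB : 0 ≤ B) (hτ : 0 < τ) :
    ∃ n : ℕ, (ε⁻¹ ^ n * B) * (‖N ^ (n + 1)‖ +
      ∑ i ∈ Finset.range (n + 1), ‖N ^ i‖ * D * ‖N ^ (n - i)‖) ≤ τ := by
  obtain ⟨C, hC, hpow⟩ := qn_pow_le hN hε
  obtain ⟨n, hn⟩ := exists_small (B * (C * (ε / 2))) (B * (C * D * C)) hτ
  refine ⟨n, ?_⟩
  have h1 : ε⁻¹ ^ n * (ε / 2) ^ n = (1 / 2) ^ n := by
    rw [← mul_pow]
    congr 1
    field_simp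
  calc _ ≤ (ε⁻¹ ^ n * B) * ((C * (ε / 2) + ((n : ℝ) + 1) * (C * D * C)) * (ε / 2) ^ n) :=
        mul_le_mul_of_nonneg_left (kappa_le hε hC hD hpow n) (by positivity)
    _ = (B * (C * (ε / 2)) + ((n : ℝ) + 1) * (B * (C * D * C))) *
        (ε⁻¹ ^ n * (ε / 2) ^ n) := by ring
    _ ≤ τ := by rw [h1]; exact hn.le

end Vale.Agent.P131.H97
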