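import Vale.Agent.P131.H97.Unif
import Mathlib.Analysis.Normed.Algebra.GelfandFormula

/-!
Norm density on every infinite-dimensional Hilbert space, separable or not.
-/

namespace Vale.Agent.P131.H97

open Module TopologicalSpace Vale.Agent.P131 Vale.Agent.P131.H856
open scoped ENNReal

universe u

section lpq

variable {ι : Type*} {E F : ι → Type*} [∀ i, NormedAddCommGroup (E i)] [∀ i, NormedSpace ℂ (E i)]
  [∀ i, NormedAddCommGroup (F i)] [∀ i, NormedSpace ℂ (F i)]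

/-- a bounded family of isomorphisms gives an isomorphism of the Hilbert sums -/
noncomputable def lpEquiv (S : ∀ i, E i ≃L[ℂ] F i) {B1 B2 : ℝ} (hB1 : 0 ≤ B1) (hB2 : 0 ≤ B2)
    (h1 : ∀ i, ‖(S i : E i →L[ℂ] F i)‖ ≤ B1) (h2 : ∀ i, ‖((S i).symm : F i →L[ℂ] E i)‖ ≤ B2) :
    lp E 2 ≃L[ℂ] lp F 2 :=
  ContinuousLinearEquiv.equivOfInverse
    (lp.mapCLM 2 (fun i => (S i : E i →L[ℂ] F i)) hB1 h1)
    (lp.mapCLM 2 (fun i => ((S i).symm : F i →L[ℂ] E i)) hB2 h2)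
    (fun f => by
      refine lp.ext (funext fun i => ?_)
      exact (S i).symm_apply_apply (f i))
    (fun f => by
      refine lp.ext (funext fun i => ?_)
      exact (S i).apply_symm_apply (f i))

lemma lpEquiv_apply (S : ∀ i, E i ≃L[ℂ] F i) {B1 B2 : ℝ} (hB1 : 0 ≤ B1) (hB2 : 0 ≤ B2)
    (h1 : ∀ i, ‖(S i : E i →L[ℂ] F i)‖ ≤ B1) (h2 : ∀ i, ‖((S i).symm : F i →L[ℂ] E i)‖ ≤ B2)
    (f : lp E 2) (i : ι) : lpEquiv S hB1 hB2 h1 h2 f i = S i (f i) := rfl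

lemma lpEquiv_symm_apply (S : ∀ i, E i ≃L[ℂ] F i) {B1 B2 : ℝ} (hB1 : 0 ≤ B1) (hB2 : 0 ≤ B2)
    (h1 : ∀ i, ‖(S i : E i →L[ℂ] F i)‖ ≤ B1) (h2 : ∀ i, ‖((S i).symm : F i →L[ℂ] E i)‖ ≤ B2)
    (f : lp F 2) (i : ι) : (lpEquiv S hB1 hB2 h1 h2).symm f i = (S i).symm (f i) := rfl

end lpq

section fam

variable {ι : Type*} {X : Type*} [NormedAddCommGroup X] [InnerProductSpace ℂ X]
  {E : ι → Type*} [∀ i, NormedAddCommGroup (E i)] [∀ i, InnerProductSpace ℂ (E i)]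

/-- the external version -/
theorem approx_ext (T : X →L[ℂ] X)
    (D : ∀ i, E i →L[ℂ] E i) {K ρ : ℝ} (hK : 0 ≤ K) (hDK : ∀ i, ‖D i‖ ≤ K) (hρ : 0 ≤ ρ)
    (S : ∀ i, X ≃L[ℂ] E i) {B1 B2 : ℝ} (hB1 : 0 ≤ B1) (hB2 : 0 ≤ B2)
    (h1 : ∀ i, ‖(S i : X →L[ℂ] E i)‖ ≤ B1) (h2 : ∀ i, ‖((S i).symm : E i →L[ℂ] X)‖ ≤ B2)
    (hS : ∀ i, ‖cj (S i) T - D i‖ ≤ ρ) :
    ∃ Φ : lp (fun _ : ι => X) 2 ≃L[ℂ] lp E 2, ‖cj Φ (amp ι T) - lp.mapCLM 2 D hK hDK‖ ≤ ρ := by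
  let Φ : lp (fun _ : ι => X) 2 ≃L[ℂ] lp E 2 := lpEquiv (E := fun _ => X) S hB1 hB2 h1 h2
  refine ⟨Φ, ?_⟩
  refine ContinuousLinearMap.opNorm_le_bound _ hρ fun f => ?_
  have h3 : (cj Φ (amp ι T) - lp.mapCLM 2 D hK hDK) f =
      lp.mapCLM 2 (fun i => cj (S i) T - D i) hρ hS f :=
    lp.ext (funext fun i => rfl)
  rw [h3]
  exact (ContinuousLinearMap.le_opNorm _ _).trans
    (mul_le_mul_of_nonneg_right (lp.norm_mapCLM_le 2 _ hρ hS) (norm_nonneg _))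

end fam

section restr

variable {H : Type*} [NormedAddCommGroup H] [InnerProductSpace ℂ H]

/-- restriction to an invariant subspace -/
def rest (Q : H →L[ℂ] H) (K : Submodule ℂ H) (h : ∀ x ∈ K, Q x ∈ K) : K →L[ℂ] K :=
  (Q ∘L K.subtypeL).codRestrict K (fun x => h x x.2)

lemma rest_pow (Q : H →L[ℂ] H) (K : Submodule ℂ H) (h : ∀ x ∈ K, Q x ∈ K) (k : ℕ) (x : K) :
    (((rest Q K h ^ k) x : K) : H) = (Q ^ k) x := by
  induction k with
  | zero => rfl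
  | succ k ih =>
    have e1 : (rest Q K h ^ (k + 1)) x = rest Q K h ((rest Q K h ^ k) x) := by rw [pow_succ']; rfl
    have e2 : (Q ^ (k + 1)) (x : H) = Q ((Q ^ k) x) := by rw [pow_succ']; rfl
    rw [e1, e2, ← ih]
    rfl

lemma norm_rest_pow (Q : H →L[ℂ] H) (K : Submodule ℂ H) (h : ∀ x ∈ K, Q x ∈ K) (k : ℕ) :
    ‖rest Q K h ^ k‖ ≤ ‖Q ^ k‖ := by
  refine ContinuousLinearMap.opNorm_le_bound _ (norm_nonneg _) fun x => ?_
  change ‖(((rest Q K h ^ k) x : K) : H)‖ ≤ ‖Q ^ k‖ * ‖(x : H)‖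
  rw [rest_pow]
  exact ContinuousLinearMap.le_opNorm _ _

lemma QN_rest {Q : H →L[ℂ] H} (hQ : QN Q) (K : Submodule ℂ H) (h : ∀ x ∈ K, Q x ∈ K) :
    QN (rest Q K h) := by
  intro L hL
  obtain ⟨C, hC⟩ := hQ L hL
  refine ⟨C, fun k x => ?_⟩
  change ‖(((rest Q K h ^ k) x : K) : H)‖ ≤ Real.exp (C - L * k) * ‖(x : H)‖
  rw [rest_pow]
  exact hC k x

end restr

/-- approximation of a quasinilpotent operator on an arbitrary infinite-dimensional Hilbert space by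
operators similar to amplifications of a universal operator -/
theorem approx_gen {T₀ : Hs →L[ℂ] Hs} (hTC : TC T₀) (hQN : QN T₀) (hU : Univ.{u} T₀)
    {H : Type u} [NormedAddCommGroup H] [InnerProductSpace ℂ H] [CompleteSpace H]
    {Q : H →L[ℂ] H} (hQ : QN Q) {ρ : ℝ} (hρ : 0 < ρ) {ι : Type*}
    (F : ι → Submodule ℂ H) (hred : ∀ i, Red Q (F i))
    (horth : Pairwise (fun i j => F i ⟂ F j)) (hdense : (⨆ i, F i).topologicalClosure = ⊤) :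
    ∃ Φ : lp (fun _ : ι => Hs) 2 ≃L[ℂ] H, ‖cj Φ (amp ι T₀) - Q‖ ≤ ρ := by
  obtain ⟨S₀, B1, B2, hT⟩ := approx_unif hU hQ hρ
  set T := cj S₀ T₀ with hTdef
  have hc : ∀ i, CompleteSpace (F i) := fun i => (hred i).1.completeSpace_coe
  have hs : ∀ i, SeparableSpace (F i) := fun i => (hred i).2.2.2.1.separableSpace
  have hS : ∀ i, ∃ S : Hs ≃L[ℂ] F i, (∀ ξ, ‖S ξ‖ ≤ B1 * ‖ξ‖) ∧ (∀ x, ‖S.symm x‖ ≤ B2 * ‖x‖) ∧
      ‖cj S T - rest Q (F i) (hred i).2.1‖ ≤ ρ :=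
    fun i => hT (F i) (hred i).2.2.2.2 _ (QN_rest hQ _ _) (norm_rest_pow _ _ _)
  choose S hS1 hS2 hS3 using hS
  obtain ⟨Φ, h3⟩ := approx_ext (E := fun i => F i) T
    (fun i => rest Q (F i) (hred i).2.1) (norm_nonneg Q)
    (fun i => by simpa using norm_rest_pow Q (F i) (hred i).2.1 1) hρ.le S
    (le_max_right B1 0) (le_max_right B2 0)
    (fun i => ContinuousLinearMap.opNorm_le_bound _ (le_max_right _ _) fun ξ =>
      (hS1 i ξ).trans (mul_le_mul_of_nonneg_right (le_max_left _ _) (norm_nonneg _)))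
    (fun i => ContinuousLinearMap.opNorm_le_bound _ (le_max_right _ _) fun x =>
      (hS2 i x).trans (mul_le_mul_of_nonneg_right (le_max_left _ _) (norm_nonneg _))) hS3
  have hV : IsHilbertSum ℂ (fun i => F i) (fun i => (F i).subtypeₗᵢ) :=
    IsHilbertSum.mkInternal F (fun i j hij v w =>
      (Submodule.isOrtho_iff_inner_eq).1 (horth hij) v v.2 w w.2) hdense.ge
  let e : H ≃ₗᵢ[ℂ] lp (fun i => F i) 2 := hV.linearIsometryEquiv
  let Ψ : lp (fun _ : ι => Hs) 2 ≃L[ℂ] lp (fun _ : ι => Hs) 2 :=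
    lpEquiv (fun _ => S₀) (norm_nonneg _) (norm_nonneg _) (fun _ => le_rfl) (fun _ => le_rfl)
  have hΨ : cj Ψ (amp ι T₀) = amp ι T := ContinuousLinearMap.ext fun f => lp.ext (funext fun i => rfl)
  refine ⟨(Ψ.trans Φ).trans e.symm.toContinuousLinearEquiv, ?_⟩
  have hcj : cj ((Ψ.trans Φ).trans e.symm.toContinuousLinearEquiv) (amp ι T₀) =
      cj e.symm.toContinuousLinearEquiv (cj Φ (cj Ψ (amp ι T₀))) :=
    ContinuousLinearMap.ext fun x => rfl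
  rw [hcj, hΨ]
  set T' := cj Φ (amp ι T) with hT'
  refine ContinuousLinearMap.opNorm_le_bound _ hρ.le fun x => ?_
  set D := lp.mapCLM 2 (fun i => rest Q (F i) (hred i).2.1) (norm_nonneg Q)
    (fun i => by simpa using norm_rest_pow Q (F i) (hred i).2.1 1) with hD
  have h4 : Q (e.symm (e x)) = e.symm (D (e x)) := by
    have h5 := (hV.hasSum_linearIsometryEquiv_symm (e x)).mapL Q
    have h6 := hV.hasSum_linearIsometryEquiv_symm (D (e x))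
    exact h5.unique h6
  rw [e.symm_apply_apply] at h4
  have h5 : (cj e.symm.toContinuousLinearEquiv T' - Q) x = e.symm ((T' - D) (e x)) := by
    rw [ContinuousLinearMap.sub_apply, h4, ContinuousLinearMap.sub_apply, map_sub]
    rfl
  rw [h5, e.symm.norm_map]
  calc ‖(T' - D) (e x)‖ ≤ ‖T' - D‖ * ‖e x‖ := ContinuousLinearMap.le_opNorm _ _
    _ ≤ ρ * ‖x‖ := by
        rw [e.norm_map]
        exact mul_le_mul_of_nonneg_right h3 (norm_nonneg _)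

/-- norm density on every infinite-dimensional Hilbert space -/
theorem qn_dense_all {H : Type u} [NormedAddCommGroup H] [InnerProductSpace ℂ H] [CompleteSpace H]
    (hH : ¬ FiniteDimensional ℂ H) {Q : H →L[ℂ] H} (hQ : QN Q) {ρ : ℝ} (hρ : 0 < ρ) :
    ∃ T : H →L[ℂ] H, TC T ∧ QN T ∧ ‖T - Q‖ ≤ ρ := by
  obtain ⟨T₀, hTC, hQN, hU⟩ := exists_window_all.{u}
  obtain ⟨𝒮, F, h𝒮, hred, horth, hdense⟩ := exists_decomp hH Q
  have : Nonempty 𝒮 := h𝒮.to_subtype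
  obtain ⟨Φ, hΦ⟩ := approx_gen hTC hQN hU hQ hρ F hred horth hdense
  exact ⟨_, (TC_amp (ι := 𝒮) hTC).conj Φ, (QN_amp (ι := 𝒮) hQN).conj Φ, hΦ⟩

end Vale.Agent.P131.H97
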