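import Mathlib.Analysis.Normed.Algebra.Spectrum
import Mathlib.Analysis.SpecificLimits.Basic
import Mathlib.Tactic.NoncommRing

/-!
Almost idempotent elements of a Banach algebra are close to idempotents.
-/

namespace Vale.Agent.P131.H97

open Filter Topology

section idem

variable {R : Type*} [NormedRing R]

/-- the Newton iteration for idempotents -/
noncomputable def newton (E : R) : ℕ → R
  | 0 => E
  | k + 1 => newton E k + (1 - 2 • newton E k) * (newton E k * newton E k - newton E k)

lemma newton_sq (e : R) :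
    (e + (1 - 2 • e) * (e * e - e)) * (e + (1 - 2 • e) * (e * e - e)) -
      (e + (1 - 2 • e) * (e * e - e)) =
    4 • ((e * e - e) * (e * e - e) * (e * e - e)) - 3 • ((e * e - e) * (e * e - e)) := by
  noncomm_ring

lemma newton_one_sub (e : R) :
    1 - 2 • (e + (1 - 2 • e) * (e * e - e)) = (1 - 2 • e) - 2 • ((1 - 2 • e) * (e * e - e)) := by
  noncomm_ring

lemma newton_bound {E : R} (hE : ‖E * E - E‖ ≤ 1 / 16) (k : ℕ) :
    ‖newton E k * newton E k - newton E k‖ ≤ ‖E * E - E‖ / 2 ^ k ∧
      ‖1 - 2 • newton E k‖ ≤ ‖1 - 2 • E‖ * (2 - 1 / 2 ^ k) := by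
  induction k with
  | zero =>
    constructor
    · simp [newton]
    · simp only [newton, pow_zero]
      norm_num
  | succ k ih =>
    obtain ⟨h1, h2⟩ := ih
    set e := newton E k with he
    set x := ‖e * e - e‖ with hx
    set y := ‖1 - 2 • e‖ with hy
    set x0 := ‖E * E - E‖ with hx0
    set y0 := ‖1 - 2 • E‖ with hy0
    have hxn : 0 ≤ x := norm_nonneg _
    have hyn : 0 ≤ y := norm_nonneg _
    have hx0n : 0 ≤ x0 := norm_nonneg _
    have hy0n : 0 ≤ y0 := norm_nonneg _
    have hp : (1 : ℝ) ≤ 2 ^ k := one_le_pow₀ (by norm_num)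
    have hxk : x ≤ 1 / 16 := h1.trans ((div_le_self hx0n hp).trans hE)
    constructor
    · simp only [newton]
      rw [← he, newton_sq]
      have h3 : ‖4 • ((e * e - e) * (e * e - e) * (e * e - e)) - 3 • ((e * e - e) * (e * e - e))‖
          ≤ 4 * (x * x * x) + 3 * (x * x) := by
        refine (norm_sub_le _ _).trans (add_le_add ?_ ?_)
        · refine (norm_nsmul_le).trans ?_
          push_cast
          refine mul_le_mul_of_nonneg_left ?_ (by norm_num)
          exact (norm_mul_le _ _).trans (mul_le_mul_of_nonneg_right (norm_mul_le _ _) hxn)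
        · refine (norm_nsmul_le).trans ?_
          push_cast
          exact mul_le_mul_of_nonneg_left (norm_mul_le _ _) (by norm_num)
      have h4 : 4 * (x * x * x) + 3 * (x * x) ≤ x / 2 := by nlinarith [mul_nonneg hxn hxn]
      calc _ ≤ _ := h3
        _ ≤ x / 2 := h4
        _ ≤ x0 / 2 ^ k / 2 := by linarith
        _ = x0 / 2 ^ (k + 1) := by rw [pow_succ, div_div]
    · simp only [newton]
      rw [← he, newton_one_sub]
      have h3 : ‖(1 - 2 • e) - 2 • ((1 - 2 • e) * (e * e - e))‖ ≤ y + 2 * (y * x) := by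
        refine (norm_sub_le _ _).trans (add_le_add le_rfl ?_)
        refine (norm_nsmul_le).trans ?_
        push_cast
        exact mul_le_mul_of_nonneg_left (norm_mul_le _ _) (by norm_num)
      refine h3.trans ?_
      have hq : (0 : ℝ) < 1 / 2 ^ k := by positivity
      have hq1 : (1 : ℝ) / 2 ^ k ≤ 1 := by
        rw [div_le_one (by positivity)]; exact hp
      have h5 : x ≤ 1 / 16 * (1 / 2 ^ k) := by
        refine h1.trans ?_
        rw [div_eq_mul_one_div]
        exact mul_le_mul_of_nonneg_right hE hq.le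
      have h6 : (1 : ℝ) / 2 ^ (k + 1) = (1 / 2 ^ k) / 2 := by rw [pow_succ, div_div]
      rw [h6]
      set q : ℝ := 1 / 2 ^ k with hqdef
      have h7 : y + 2 * (y * x) = y * (1 + 2 * x) := by ring
      rw [h7]
      calc y * (1 + 2 * x) ≤ (y0 * (2 - q)) * (1 + 2 * (1 / 16 * q)) := by
            refine mul_le_mul h2 (by linarith) (by positivity) ?_
            exact mul_nonneg hy0n (by linarith)
        _ = y0 * ((2 - q) * (1 + 2 * (1 / 16 * q))) := by ring
        _ ≤ y0 * (2 - q / 2) := by
            refine mul_le_mul_of_nonneg_left ?_ hy0n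
            nlinarith

/-- an almost idempotent element is close to an idempotent commuting with its commutant -/
theorem exists_idem [CompleteSpace R] {E : R} (hE : ‖E * E - E‖ ≤ 1 / 16) :
    ∃ P : R, P * P = P ∧ ‖P - E‖ ≤ 4 * (‖1 - 2 • E‖ * ‖E * E - E‖) ∧
      ∀ C, C * E = E * C → C * P = P * C := by
  have hstep : ∀ k, dist (newton E k) (newton E (k + 1)) ≤
      (4 * (‖1 - 2 • E‖ * ‖E * E - E‖)) / 2 / 2 ^ k := by
    intro k
    obtain ⟨h1, h2⟩ := newton_bound hE k
    rw [dist_comm, dist_eq_norm]
    simp only [newton, add_sub_cancel_left]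
    refine (norm_mul_le _ _).trans ?_
    have hq : (0 : ℝ) < 1 / 2 ^ k := by positivity
    have h3 : ‖1 - 2 • newton E k‖ ≤ ‖1 - 2 • E‖ * 2 :=
      h2.trans (mul_le_mul_of_nonneg_left (by linarith) (norm_nonneg _))
    calc ‖1 - 2 • newton E k‖ * ‖newton E k * newton E k - newton E k‖
        ≤ (‖1 - 2 • E‖ * 2) * (‖E * E - E‖ / 2 ^ k) :=
          mul_le_mul h3 h1 (norm_nonneg _) (by positivity)
      _ = (4 * (‖1 - 2 • E‖ * ‖E * E - E‖)) / 2 / 2 ^ k := by ring
  obtain ⟨P, hP⟩ := cauchySeq_tendsto_of_complete (cauchySeq_of_le_geometric_two hstep)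
  refine ⟨P, ?_, ?_, fun C hC => ?_⟩
  · have h1 : Tendsto (fun k => newton E k * newton E k - newton E k) atTop (𝓝 (P * P - P)) :=
      (hP.mul hP).sub hP
    have h2 : Tendsto (fun k => newton E k * newton E k - newton E k) atTop (𝓝 0) := by
      refine squeeze_zero_norm (fun k => (newton_bound hE k).1) ?_
      have h3 : Tendsto (fun k : ℕ => ‖E * E - E‖ * (1 / 2 : ℝ) ^ k) atTop (𝓝 (‖E * E - E‖ * 0)) :=
        (tendsto_pow_atTop_nhds_zero_of_lt_one (by norm_num) (by norm_num)).const_mul _
      rw [mul_zero] at h3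
      refine h3.congr fun k => ?_
      rw [one_div, inv_pow, div_eq_mul_inv]
    exact sub_eq_zero.1 (tendsto_nhds_unique h1 h2)
  · have h1 := dist_le_of_le_geometric_two_of_tendsto₀ hstep hP
    rw [dist_comm, dist_eq_norm] at h1
    exact h1
  · have h1 : ∀ k, C * newton E k = newton E k * C := by
      intro k
      induction k with
      | zero => exact hC
      | succ k ih =>
        have h2 : Commute C (newton E k) := ih
        have h3 : Commute C (newton E (k + 1)) := by
          simp only [newton]
          exact h2.add_right (((Commute.one_right C).sub_right (h2.smul_right 2)).mul_right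
            ((h2.mul_right h2).sub_right h2))
        exact h3
    have h2 : Tendsto (fun k => C * newton E k) atTop (𝓝 (C * P)) := hP.const_mul C
    have h3 : Tendsto (fun k => newton E k * C) atTop (𝓝 (P * C)) := hP.mul_const C
    exact tendsto_nhds_unique h2 (h3.congr fun k => (h1 k).symm)

end idem

end Vale.Agent.P131.H97
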