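import Vale.Agent.P131.H97.Card
import Vale.Agent.P131.H97.Clos
import Mathlib.Analysis.LocallyConvex.WeakOperatorTopology

/-!
The commutant is a proper subalgebra, closed in the weak operator topology.
-/

namespace Vale.Agent.P131.H97

open Module Vale.Agent.P131.H856

variable {H : Type*} [NormedAddCommGroup H] [InnerProductSpace ℂ H]

lemma mem_centralizer {T A : H →L[ℂ] H} :
    A ∈ Subalgebra.centralizer ℂ ({T} : Set (H →L[ℂ] H)) ↔ A ∘L T = T ∘L A := by
  rw [Subalgebra.mem_centralizer_iff]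
  constructor
  · intro h
    exact (h T rfl).symm
  · rintro h _ rfl
    exact h.symm

lemma isClosed_centralizer (T : H →L[ℂ] H) :
    IsClosed {A : H →WOT[ℂ] H | A.toCLM ∈ Subalgebra.centralizer ℂ ({T} : Set (H →L[ℂ] H))} := by
  have h1 : {A : H →WOT[ℂ] H | A.toCLM ∈ Subalgebra.centralizer ℂ ({T} : Set (H →L[ℂ] H))} =
      ⋂ (x : H) (y : StrongDual ℂ H), {A : H →WOT[ℂ] H | y (A (T x)) = (y ∘L T) (A x)} := by
    ext A
    simp only [Set.mem_setOf_eq, Set.mem_iInter, mem_centralizer]
    constructor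
    · intro h x y
      have h2 := congrArg (fun B : H →L[ℂ] H => y (B x)) h
      exact h2
    · intro h
      ext x
      by_contra hne
      obtain ⟨y, hy⟩ := SeparatingDual.exists_separating_of_ne (R := ℂ) hne
      exact hy (h x y)
  rw [h1]
  refine isClosed_iInter fun x => isClosed_iInter fun y => ?_
  exact isClosed_eq (ContinuousLinearMapWOT.continuous_dual_apply _ _)
    (ContinuousLinearMapWOT.continuous_dual_apply _ _)

lemma centralizer_ne_top [Nontrivial H] {T : H →L[ℂ] H} (h : TC T) :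
    Subalgebra.centralizer ℂ ({T} : Set (H →L[ℂ] H)) ≠ ⊤ := by
  intro htop
  obtain ⟨x, hx⟩ := _root_.exists_ne (0 : H)
  let A : H →L[ℂ] H := (innerSL ℂ x).smulRight x
  have hA : ∀ y, A y = inner ℂ x y • x := fun y => rfl
  have h1 : A ∘L T = T ∘L A := mem_centralizer.1 (by rw [htop]; trivial)
  have h2 : inner ℂ x (T x) • x = inner ℂ x x • T x := by
    have h3 := congrArg (fun B : H →L[ℂ] H => B x) h1
    change A (T x) = T (A x) at h3
    rw [hA, hA, map_smul] at h3
    exact h3
  have h3 : (inner ℂ x x : ℂ) ≠ 0 := fun h0 => hx (inner_self_eq_zero.1 h0)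
  apply hx
  refine h.no_eigen (z := (inner ℂ x x : ℂ)⁻¹ * inner ℂ x (T x)) ?_
  rw [mul_smul, h2, smul_smul, inv_mul_cancel₀ h3, one_smul]

end Vale.Agent.P131.H97
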