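import Vale.Agent.P131.H97.Abs

/-!
Copies of the example with a window of constant weights.
-/

namespace Vale.Agent.P131.H97

open MeasureTheory Module Vale.Agent.P131 Vale.Agent.P131.H856
open scoped ENNReal

/-- multiplication operators -/
lemma exists_mul (w : ℝ → ℤ → ℝ) (hm : ∀ n, Measurable fun t => w t n) (C : ℝ)
    (hC : ∀ t n, |w t n| ≤ C) : ∃ B : Hs →L[ℂ] Hs, ∀ ξ : Hs, ∀ᵐ t : ℝ, ∀ n : ℤ,
      (B ξ : ℝ × ℤ → ℂ) (t, n) = (w t n : ℂ) * (ξ : ℝ × ℤ → ℂ) (t, n) := by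
  have hC0 : 0 ≤ C := (abs_nonneg _).trans (hC 0 0)
  have hmeas : Measurable fun p : ℝ × ℤ => (w p.1 p.2 : ℂ) :=
    Complex.measurable_ofReal.comp (measurable_from_prod_countable_left fun n => hm n)
  have hmem : ∀ ξ : Hs, MemLp (fun p : ℝ × ℤ => (w p.1 p.2 : ℂ) * (ξ : ℝ × ℤ → ℂ) p) 2 mu := by
    intro ξ
    refine MemLp.of_le_mul (c := C) (Lp.memLp ξ) ?_ ?_
    · exact hmeas.aestronglyMeasurable.mul (Lp.aestronglyMeasurable ξ)
    · refine Filter.Eventually.of_forall fun p => ?_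
      rw [norm_mul, Complex.norm_real, Real.norm_eq_abs]
      exact mul_le_mul_of_nonneg_right (hC p.1 p.2) (norm_nonneg _)
  have hcoe : ∀ ξ : Hs, ((hmem ξ).toLp _ : ℝ × ℤ → ℂ) =ᵐ[mu]
      fun p => (w p.1 p.2 : ℂ) * (ξ : ℝ × ℤ → ℂ) p := fun ξ => MemLp.coeFn_toLp _
  let L : Hs →ₗ[ℂ] Hs :=
    { toFun := fun ξ => (hmem ξ).toLp _
      map_add' := by
        intro ξ η
        refine Lp.ext ?_
        filter_upwards [hcoe (ξ + η), hcoe ξ, hcoe η, Lp.coeFn_add ξ η,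
          Lp.coeFn_add ((hmem ξ).toLp _) ((hmem η).toLp _)] with p h1 h2 h3 h4 h5
        rw [h1, h5, Pi.add_apply, h2, h3, h4, Pi.add_apply, mul_add]
      map_smul' := by
        intro c ξ
        refine Lp.ext ?_
        filter_upwards [hcoe (c • ξ), hcoe ξ, Lp.coeFn_smul c ξ,
          Lp.coeFn_smul c ((hmem ξ).toLp _)] with p h1 h2 h3 h4
        simp only [RingHom.id_apply]
        rw [h1, h4, Pi.smul_apply, h2, h3, Pi.smul_apply, smul_eq_mul, smul_eq_mul]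
        ring }
  refine ⟨L.mkContinuous C fun ξ => ?_, fun ξ => ?_⟩
  · refine Lp.norm_le_mul_norm_of_ae_le_mul ?_
    filter_upwards [hcoe ξ] with p h1
    have h2 : ((L ξ : Hs) : ℝ × ℤ → ℂ) p = (w p.1 p.2 : ℂ) * (ξ : ℝ × ℤ → ℂ) p := h1
    rw [h2, norm_mul, Complex.norm_real, Real.norm_eq_abs]
    exact mul_le_mul_of_nonneg_right (hC p.1 p.2) (norm_nonneg _)
  · exact ae_mu_iff (p := fun p => ((L ξ : Hs) : ℝ × ℤ → ℂ) p =
      (w p.1 p.2 : ℂ) * (ξ : ℝ × ℤ → ℂ) p) (hcoe ξ)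

/-- far away the potential drops quickly -/
lemma drop_far {L : ℝ} (hL : 0 ≤ L) : ∃ R : ℕ, ∀ (t : ℝ) (z : ℤ),
    (z ≤ -(R : ℤ) - 1 ∨ (R : ℤ) ≤ z) → hp t (z + 1) ≤ hp t z - L := by
  obtain ⟨c, hc, hg⟩ := dr_growth
  obtain ⟨R, hR⟩ : ∃ R : ℕ, L ≤ c * ((R : ℝ) + 1) ^ 2 := by
    obtain ⟨R, hR⟩ := exists_nat_ge (L / c)
    refine ⟨R, ?_⟩
    rw [div_le_iff₀ hc] at hR
    have h1 : (R : ℝ) ≤ ((R : ℝ) + 1) ^ 2 := by nlinarith [Nat.cast_nonneg (α := ℝ) R]
    nlinarith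
  refine ⟨R, fun t z hz => ?_⟩
  have hmono : ∀ j : ℕ, R ≤ j → L ≤ dr t j := fun j hj => by
    refine hR.trans (le_trans ?_ (hg t j))
    have : (R : ℝ) ≤ j := by exact_mod_cast hj
    gcongr
  unfold hp
  rcases hz with hz2 | hz2
  · obtain ⟨j, hj⟩ : ∃ j : ℕ, z = -((j + 1 : ℕ) : ℤ) := ⟨(-z - 1).toNat, by omega⟩
    have e : z + 1 = -(j : ℤ) := by omega
    rw [e, hj, hh_neg_natCast, hh_neg_natCast, Finset.sum_range_succ]
    have h3 := (hmono j (by omega)).trans (dr_le_dl t j)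
    linarith
  · obtain ⟨j, rfl⟩ := Int.eq_ofNat_of_zero_le (show 0 ≤ z by omega)
    have e : ((j : ℤ) + 1) = ((j + 1 : ℕ) : ℤ) := by push_cast; ring
    rw [e, hh_natCast, hh_natCast, Finset.sum_range_succ]
    have h3 := hmono j (by omega)
    linarith

/-- the potential is bounded on windows -/
lemma hp_window (I : ℕ) : ∃ B : ℝ, ∀ t : ℝ, hp t (-(I : ℤ)) - hp t I ≤ B := by
  refine ⟨(∑ j ∈ Finset.range I, 4 ^ (blk j) * 4) + ∑ j ∈ Finset.range I, 4 ^ (blk j) * 2,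
    fun t => ?_⟩
  unfold hp
  rw [hh_neg_natCast, hh_natCast, sub_neg_eq_add]
  refine add_le_add (Finset.sum_le_sum fun j _ => ?_) (Finset.sum_le_sum fun j _ => ?_)
  · unfold dl
    exact mul_le_mul_of_nonneg_left (by linarith [ph_nonneg (blk j) t]) (pow_four_pos _).le
  · unfold dr
    exact mul_le_mul_of_nonneg_left (by linarith [ph_lt_one (blk j) t]) (pow_four_pos _).le

/-- one operator with transitive commutant whose similarity orbit contains operators with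
arbitrarily long windows of arbitrarily small constant weight -/
theorem exists_modified : ∃ T₀ : Hs →L[ℂ] Hs, TC T₀ ∧ QN T₀ ∧ ∀ (ε : ℝ), 0 < ε → ∀ n₀ : ℕ,
    ∃ (S : Hs ≃L[ℂ] Hs) (W : ℝ → ℤ → ℝ), (∀ t n, 0 ≤ W t n ∧ W t n ≤ ε) ∧
    (∀ (t : ℝ) (n : ℤ), 1 ≤ n → n ≤ n₀ → W t n = ε) ∧
    ∀ ξ : Hs, ∀ᵐ t : ℝ, ∀ n : ℤ,
      (((S : Hs →L[ℂ] Hs) ∘L T₀ ∘L (S.symm : Hs →L[ℂ] Hs)) ξ : ℝ × ℤ → ℂ) (t, n) =
        (W t n : ℂ) * (ξ : ℝ × ℤ → ℂ) (t, n - 1) := by
  obtain ⟨T₀, hT00⟩ := exists_op hp hp_measurable Set.univ MeasurableSet.univ 0 1 0 (by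
    intro t _ n
    rw [sub_zero]
    have := hp_antitone t (show n - 1 ≤ n by omega)
    linarith)
  have hT0 : ∀ ξ : Hs, ∀ᵐ t : ℝ, ∀ n : ℤ, (T₀ ξ : ℝ × ℤ → ℂ) (t, n) =
      (Real.exp (hp t n - hp t (n - 1)) : ℂ) * (ξ : ℝ × ℤ → ℂ) (t, n - 1) := by
    intro ξ
    filter_upwards [hT00 ξ] with t ht n
    rw [ht n]
    simp
  refine ⟨T₀, ⟨ex_nonscalar hT0, trans_of_formula hT0⟩, qn_of_formula hT0, fun ε hε n₀ => ?_⟩
  obtain ⟨R, hR⟩ := drop_far (L := max 0 (-Real.log ε)) (le_max_left _ _)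
  set I : ℕ := R + n₀ + 1 with hI
  obtain ⟨B, hB⟩ := hp_window I
  let m : ℤ → ℤ := fun n => max (-(I : ℤ)) (min n I)
  have hm1 : ∀ n, -(I : ℤ) ≤ m n := fun n => le_max_left _ _
  have hm2 : ∀ n, m n ≤ I := fun n => by
    change max (-(I : ℤ)) (min n I) ≤ I
    omega
  let g : ℝ → ℤ → ℝ := fun t n => ((m n : ℝ) + I) * Real.log ε - hp t (m n) + hp t (-(I : ℤ))
  have hgm : ∀ n, Measurable fun t => g t n := fun n =>
    (measurable_const.sub (hp_measurable _)).add (hp_measurable _)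
  set C : ℝ := 2 * I * |Real.log ε| + B with hC
  have hgC : ∀ t n, |g t n| ≤ C := by
    intro t n
    have h1 : hp t (m n) ≤ hp t (-(I : ℤ)) := hp_antitone t (hm1 n)
    have h2 : hp t I ≤ hp t (m n) := hp_antitone t (hm2 n)
    have h3 := hB t
    have h4 : (0 : ℝ) ≤ (m n : ℝ) + I := by
      have : (0 : ℤ) ≤ m n + I := by have := hm1 n; omega
      exact_mod_cast this
    have h5 : (m n : ℝ) + I ≤ 2 * I := by
      have : m n + I ≤ 2 * I := by have := hm2 n; omega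
      exact_mod_cast this
    have h6 : |((m n : ℝ) + I) * Real.log ε| ≤ 2 * I * |Real.log ε| := by
      rw [abs_mul, abs_of_nonneg h4]
      exact mul_le_mul_of_nonneg_right h5 (abs_nonneg _)
    have h7 : |hp t (-(I : ℤ)) - hp t (m n)| ≤ B := by
      rw [abs_of_nonneg (by linarith)]
      linarith
    have h8 : g t n = ((m n : ℝ) + I) * Real.log ε + (hp t (-(I : ℤ)) - hp t (m n)) := by
      simp only [g]; ring
    rw [h8]
    exact (abs_add_le _ _).trans (add_le_add h6 h7)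
  obtain ⟨D, hD⟩ := exists_mul (fun t n => Real.exp (g t n))
    (fun n => Real.measurable_exp.comp (hgm n)) (Real.exp C) (fun t n => by
      rw [Real.abs_exp]; exact Real.exp_le_exp.2 ((le_abs_self _).trans (hgC t n)))
  obtain ⟨D', hD'⟩ := exists_mul (fun t n => Real.exp (-g t n))
    (fun n => Real.measurable_exp.comp (hgm n).neg) (Real.exp C) (fun t n => by
      rw [Real.abs_exp]; exact Real.exp_le_exp.2 ((neg_le_abs _).trans (hgC t n)))
  have hDD : ∀ ξ, D' (D ξ) = ξ := by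
    intro ξ
    refine Lp.ext (ae_mu_of ?_)
    filter_upwards [hD' (D ξ), hD ξ] with t h1 h2 n
    show ((D' (D ξ) : Hs) : ℝ × ℤ → ℂ) (t, n) = _
    rw [h1, h2, ← mul_assoc, ← Complex.ofReal_mul, ← Real.exp_add]
    simp
  have hDD' : ∀ ξ, D (D' ξ) = ξ := by
    intro ξ
    refine Lp.ext (ae_mu_of ?_)
    filter_upwards [hD (D' ξ), hD' ξ] with t h1 h2 n
    show ((D (D' ξ) : Hs) : ℝ × ℤ → ℂ) (t, n) = _
    rw [h1, h2, ← mul_assoc, ← Complex.ofReal_mul, ← Real.exp_add]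
    simp
  let S : Hs ≃L[ℂ] Hs := ContinuousLinearEquiv.equivOfInverse D D' hDD hDD'
  let W : ℝ → ℤ → ℝ := fun t n =>
    Real.exp (g t n + (hp t n - hp t (n - 1)) - g t (n - 1))
  refine ⟨S, W, ?_, ?_, ?_⟩
  · intro t n
    refine ⟨(Real.exp_pos _).le, ?_⟩
    by_cases hn : -(I : ℤ) < n ∧ n ≤ I
    · have e1 : m n = n := by simp only [m]; omega
      have e2 : m (n - 1) = n - 1 := by simp only [m]; omega
      have e3 : g t n + (hp t n - hp t (n - 1)) - g t (n - 1) = Real.log ε := by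
        simp only [g, e1, e2]
        push_cast
        ring
      simp only [W, e3, Real.exp_log hε, le_refl]
    · have e1 : m n = m (n - 1) := by simp only [m]; omega
      have e3 : g t n + (hp t n - hp t (n - 1)) - g t (n - 1) = hp t n - hp t (n - 1) := by
        simp only [g, e1]
        ring
      have h1 := hR t (n - 1) (by omega)
      rw [sub_add_cancel] at h1
      simp only [W, e3]
      calc Real.exp (hp t n - hp t (n - 1)) ≤ Real.exp (Real.log ε) := by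
            refine Real.exp_le_exp.2 ?_
            have := le_max_right 0 (-Real.log ε)
            linarith
        _ = ε := Real.exp_log hε
  · intro t n h1 h2
    have e1 : m n = n := by simp only [m]; omega
    have e2 : m (n - 1) = n - 1 := by simp only [m]; omega
    have e3 : g t n + (hp t n - hp t (n - 1)) - g t (n - 1) = Real.log ε := by
      simp only [g, e1, e2]
      push_cast
      ring
    simp only [W, e3, Real.exp_log hε]
  · intro ξ
    filter_upwards [hD (T₀ (D' ξ)), hT0 (D' ξ), hD' ξ] with t h1 h2 h3 n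
    show ((D (T₀ (D' ξ)) : Hs) : ℝ × ℤ → ℂ) (t, n) = _
    rw [h1, h2, h3, ← mul_assoc, ← mul_assoc, ← Complex.ofReal_mul, ← Complex.ofReal_mul,
      ← Real.exp_add, ← Real.exp_add]
    rfl

end Vale.Agent.P131.H97
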