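import Vale.Agent.P131.H856.Dense
import Mathlib.Analysis.InnerProductSpace.Adjoint
import Mathlib.Data.Fintype.Basic

/-!
Perturbation of a nilpotent operator to one with an infinite-dimensional direct zero summand.
-/

namespace Vale.Agent.P131.H97

open Module

/-- noncommutative algebra: a perturbation which meets itself trivially keeps nilpotency -/
lemma nil_add {R : Type*} [Ring R] {A B : R} {k : ℕ} (hA : A ^ k = 0)
    (hB : ∀ j : ℕ, B * A ^ j * B = 0) : (A + B) ^ (k + k) = 0 := by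
  have h1 : ∀ m : ℕ, B * (A + B) ^ m = B * A ^ m := by
    intro m
    induction m with
    | zero => simp
    | succ m ih =>
      rw [pow_succ, ← mul_assoc, ih, mul_add, hB m, add_zero, pow_succ, mul_assoc]
  have hz : ∀ m : ℕ, k ≤ m → A ^ m = 0 := fun m hm => by
    obtain ⟨r, rfl⟩ := Nat.exists_eq_add_of_le hm
    rw [pow_add, hA, zero_mul]
  have h2 : ∀ j : ℕ, (A + B) ^ (k + j) = A ^ j * (A + B) ^ k := by
    intro j
    induction j with
    | zero => simp
    | succ j ih =>
      rw [← add_assoc, pow_succ' (A + B), add_mul, h1, hz (k + j) (by omega), mul_zero, add_zero,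
        ih, ← mul_assoc, ← pow_succ']
  rw [h2, hA, zero_mul]

variable {H : Type*} [NormedAddCommGroup H] [InnerProductSpace ℂ H]

/-- a nilpotent operator on an infinite-dimensional space has infinite-dimensional kernel -/
lemma ker_infinite {E : Type*} [AddCommGroup E] [Module ℂ E] (hE : ¬ FiniteDimensional ℂ E)
    {N : E →ₗ[ℂ] E} {k : ℕ} (hN : N ^ k = 0) : ¬ FiniteDimensional ℂ (LinearMap.ker N) := by
  intro hfin
  have h : ∀ j : ℕ, FiniteDimensional ℂ (LinearMap.ker (N ^ j)) := by
    intro j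
    induction j with
    | zero =>
      have h0 : LinearMap.ker (N ^ 0) = ⊥ := by
        rw [pow_zero]
        exact LinearMap.ker_id
      rw [h0]
      infer_instance
    | succ j ih =>
      let f : LinearMap.ker (N ^ (j + 1)) →ₗ[ℂ] LinearMap.ker (N ^ j) :=
        (N.restrict (p := LinearMap.ker (N ^ (j + 1))) (q := LinearMap.ker (N ^ j)) (by
          intro x hx
          rw [LinearMap.mem_ker] at hx ⊢
          rw [pow_succ] at hx
          exact hx))
      have hk : FiniteDimensional ℂ (LinearMap.ker f) := by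
        let g : LinearMap.ker f →ₗ[ℂ] LinearMap.ker N :=
          { toFun := fun x => ⟨((x : LinearMap.ker (N ^ (j + 1))) : E), by
              have h1 := x.2
              rw [LinearMap.mem_ker] at h1 ⊢
              have h2 := congrArg (fun y : LinearMap.ker (N ^ j) => (y : E)) h1
              exact h2⟩
            map_add' := fun x y => rfl
            map_smul' := fun c x => rfl }
        have hg : Function.Injective g := by
          intro x y hxy
          have h1 := congrArg (fun z : LinearMap.ker N => (z : E)) hxy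
          exact Subtype.ext (Subtype.ext h1)
        exact FiniteDimensional.of_injective g hg
      have hr : FiniteDimensional ℂ (LinearMap.range f) := inferInstance
      have hq : Module.Finite ℂ (LinearMap.ker (N ^ (j + 1)) ⧸ LinearMap.ker f) :=
        Module.Finite.equiv f.quotKerEquivRange.symm
      exact Module.Finite.of_submodule_quotient (LinearMap.ker f)
  have h1 := h k
  rw [hN, LinearMap.ker_zero] at h1
  exact hE (Module.finite_def.2 ((Submodule.fg_top (⊤ : Submodule ℂ E)).1 (Module.finite_def.1 h1)))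

/-- a unit vector of an infinite-dimensional subspace orthogonal to a finite set -/
lemma exists_unit_orth (K : Submodule ℂ H) (hK : ¬ FiniteDimensional ℂ K) (F : Finset H) :
    ∃ x ∈ K, ‖x‖ = 1 ∧ ∀ y ∈ F, inner ℂ y x = 0 := by
  let G : Submodule ℂ H := Submodule.span ℂ (F : Set H)
  have fd : FiniteDimensional ℂ G := FiniteDimensional.span_finset ℂ F
  let P : K →ₗ[ℂ] G := (G.orthogonalProjectionOnto : H →ₗ[ℂ] G) ∘ₗ K.subtype
  have hP : ¬ Function.Injective P := fun h => hK (FiniteDimensional.of_injective P h)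
  obtain ⟨x, hx, hx0⟩ : ∃ x : K, P x = 0 ∧ x ≠ 0 := by
    by_contra hcon
    push Not at hcon
    exact hP ((injective_iff_map_eq_zero P).2 hcon)
  have hn : ‖(x : H)‖ ≠ 0 := fun h => hx0 (Subtype.ext (norm_eq_zero.1 h))
  refine ⟨((‖(x : H)‖⁻¹ : ℝ) : ℂ) • (x : H), K.smul_mem _ x.2, ?_, fun y hy => ?_⟩
  · rw [norm_smul, Complex.norm_real, Real.norm_eq_abs, abs_inv, abs_norm, inv_mul_cancel₀ hn]
  · have h1 : (x : H) ∈ Gᗮ := by
      have h2 : G.orthogonalProjectionOnto (x : H) = 0 := hx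
      exact Submodule.orthogonalProjectionOnto_eq_zero_iff.1 h2
    rw [inner_smul_right, (Submodule.mem_orthogonal G _).1 h1 y (Submodule.subset_span hy), mul_zero]

lemma coe_pow' {N : H →L[ℂ] H} (k : ℕ) :
    ((N ^ k : H →L[ℂ] H) : H →ₗ[ℂ] H) = (N : H →ₗ[ℂ] H) ^ k := by
  induction k with
  | zero => rfl
  | succ k ih =>
    rw [pow_succ, pow_succ, ← ih]
    rfl

lemma adj_pow [CompleteSpace H] (N : H →L[ℂ] H) (j : ℕ) :
    (ContinuousLinearMap.adjoint N) ^ j = ContinuousLinearMap.adjoint (N ^ j) := by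
  rw [← ContinuousLinearMap.star_eq_adjoint, ← ContinuousLinearMap.star_eq_adjoint, star_pow]

/-- the two sequences -/
lemma exists_seqs [CompleteSpace H] (hH : ¬ FiniteDimensional ℂ H) {N : H →L[ℂ] H} {k : ℕ}
    (hN : N ^ k = 0) : ∃ u v : ℕ → H, Orthonormal ℂ u ∧ Orthonormal ℂ v ∧ (∀ i, N (u i) = 0) ∧
      (∀ i, (ContinuousLinearMap.adjoint N) (v i) = 0) ∧
      ∀ i l j, j < k → inner ℂ ((N ^ j) (v i)) (u l) = 0 := by
  classical
  have hk1 : ¬ FiniteDimensional ℂ (LinearMap.ker (N : H →ₗ[ℂ] H)) := by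
    refine ker_infinite hH (k := k) ?_
    rw [← coe_pow', hN]
    rfl
  have hk2 : ¬ FiniteDimensional ℂ (LinearMap.ker ((ContinuousLinearMap.adjoint N : H →L[ℂ] H) : H →ₗ[ℂ] H)) := by
    refine ker_infinite hH (k := k) ?_
    rw [← coe_pow', adj_pow, hN, map_zero]
    rfl
  obtain ⟨f, hf1, hf2⟩ := exists_seq_of_forall_finset_exists
    (fun p : H × H => ‖p.1‖ = 1 ∧ ‖p.2‖ = 1 ∧ N p.1 = 0 ∧ ContinuousLinearMap.adjoint N p.2 = 0 ∧
      ∀ j < k, inner ℂ ((N ^ j) p.2) p.1 = 0)
    (fun p q : H × H => inner ℂ p.1 q.1 = 0 ∧ inner ℂ p.2 q.2 = 0 ∧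
      (∀ j < k, inner ℂ ((N ^ j) p.2) q.1 = 0) ∧ ∀ j < k, inner ℂ ((N ^ j) q.2) p.1 = 0) (by
    intro s hs
    obtain ⟨u, hu1, hu2, hu3⟩ := exists_unit_orth _ hk1
      (s.image Prod.fst ∪ (Finset.range k).biUnion fun j => s.image fun p => (N ^ j) p.2)
    obtain ⟨v, hv1, hv2, hv3⟩ := exists_unit_orth _ hk2
      (s.image Prod.snd ∪ (Finset.range k).biUnion fun j =>
        (insert u (s.image Prod.fst)).image fun x => (ContinuousLinearMap.adjoint N ^ j) x)
    have hadj : ∀ j x, inner ℂ ((ContinuousLinearMap.adjoint N ^ j) x) v = 0 →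
        inner ℂ ((N ^ j) v) x = 0 := by
      intro j x h
      rw [adj_pow] at h
      rw [← ContinuousLinearMap.adjoint_inner_right, ← inner_conj_symm, h, map_zero]
    refine ⟨(u, v), ⟨hu2, hv2, hu1, hv1, fun j hj => hadj j u (hv3 _ ?_)⟩, fun p hp =>
      ⟨hu3 _ ?_, hv3 _ ?_, fun j hj => hu3 _ ?_, fun j hj => hadj j _ (hv3 _ ?_)⟩⟩
    · refine Finset.mem_union_right _ (Finset.mem_biUnion.2 ⟨j, Finset.mem_range.2 hj, ?_⟩)
      exact Finset.mem_image_of_mem _ (Finset.mem_insert_self _ _)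
    · exact Finset.mem_union_left _ (Finset.mem_image_of_mem _ hp)
    · exact Finset.mem_union_left _ (Finset.mem_image_of_mem _ hp)
    · refine Finset.mem_union_right _ (Finset.mem_biUnion.2 ⟨j, Finset.mem_range.2 hj, ?_⟩)
      exact Finset.mem_image_of_mem (fun p : H × H => (N ^ j) p.2) hp
    · refine Finset.mem_union_right _ (Finset.mem_biUnion.2 ⟨j, Finset.mem_range.2 hj, ?_⟩)
      exact Finset.mem_image_of_mem _ (Finset.mem_insert_of_mem (Finset.mem_image_of_mem _ hp)))
  have hsymm : ∀ x y : H, inner ℂ x y = 0 → inner ℂ y x = 0 := fun x y h => by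
    rw [← inner_conj_symm, h, map_zero]
  refine ⟨fun n => (f n).1, fun n => (f n).2, ⟨fun i => (hf1 i).1, fun i j hij => ?_⟩,
    ⟨fun i => (hf1 i).2.1, fun i j hij => ?_⟩, fun i => (hf1 i).2.2.1, fun i => (hf1 i).2.2.2.1,
    fun i l j hj => ?_⟩
  · rcases lt_or_gt_of_ne hij with h | h
    · exact (hf2 _ _ h).1
    · exact hsymm _ _ (hf2 _ _ h).1
  · rcases lt_or_gt_of_ne hij with h | h
    · exact (hf2 _ _ h).2.1
    · exact hsymm _ _ (hf2 _ _ h).2.1
  · rcases lt_trichotomy i l with h | h | h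
    · exact (hf2 _ _ h).2.2.1 j hj
    · rw [h]; exact (hf1 l).2.2.2.2 j hj
    · exact (hf2 _ _ h).2.2.2 j hj

/-- closed span of an orthonormal sequence -/
lemma closedSpan_infinite {u : ℕ → H} (hu : Orthonormal ℂ u) :
    ¬ FiniteDimensional ℂ (Submodule.span ℂ (Set.range u)).topologicalClosure := by
  intro hfin
  have hmem : ∀ i, u i ∈ (Submodule.span ℂ (Set.range u)).topologicalClosure := fun i =>
    Submodule.le_topologicalClosure _ (Submodule.subset_span ⟨i, rfl⟩)
  have h1 : LinearIndependent ℂ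
      (fun i => (⟨u i, hmem i⟩ : (Submodule.span ℂ (Set.range u)).topologicalClosure)) :=
    LinearIndependent.of_comp (Submodule.subtype _) (by exact hu.linearIndependent)
  exact Module.Finite.not_linearIndependent_of_infinite _ h1

open ContinuousLinearMap in
theorem exists_pert [CompleteSpace H] [TopologicalSpace.SeparableSpace H]
    (hH : ¬ FiniteDimensional ℂ H) {N : H →L[ℂ] H} {k : ℕ} (hN : N ^ k = 0) {δ : ℝ} (hδ : 0 < δ) :
    ∃ Y : Submodule ℂ H, IsClosed (Y : Set H) ∧ ¬ FiniteDimensional ℂ Y ∧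
      ∃ (N' : H →L[ℂ] H) (a : Y →L[ℂ] H) (b : H →L[ℂ] Y), (∃ n, N' ^ n = 0) ∧
        ‖N' - N‖ ≤ δ * ‖N‖ ∧ (∀ y, b (a y) = y) ∧ (∀ y, N' (a y) = 0) ∧ ∀ x, b (N' x) = 0 := by
  have hsc : SecondCountableTopology H := UniformSpace.secondCountable_of_separable H
  have hN1 : N ^ (k + 1) = 0 := by rw [pow_succ, hN, zero_mul]
  obtain ⟨u, v, hu, hv, hNu, hNv, huv⟩ := exists_seqs hH hN1
  set U : Submodule ℂ H := (Submodule.span ℂ (Set.range u)).topologicalClosure with hU
  set Y : Submodule ℂ H := (Submodule.span ℂ (Set.range v)).topologicalClosure with hY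
  have hUc : IsClosed (U : Set H) := Submodule.isClosed_topologicalClosure _
  have hYc : IsClosed (Y : Set H) := Submodule.isClosed_topologicalClosure _
  have : CompleteSpace U := hUc.completeSpace_coe
  have : CompleteSpace Y := hYc.completeSpace_coe
  have hUi := closedSpan_infinite hu
  have hYi := closedSpan_infinite hv
  obtain ⟨e⟩ := Vale.Agent.P131.exists_equiv Y U hYi hUi
  have hUN : ∀ x ∈ U, N x = 0 := by
    have h1 : U ≤ LinearMap.ker (N : H →ₗ[ℂ] H) := by
      refine Submodule.topologicalClosure_minimal _ ?_ N.isClosed_ker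
      rw [Submodule.span_le]
      rintro _ ⟨i, rfl⟩
      exact hNu i
    exact fun x hx => h1 hx
  have hYN : ∀ y ∈ Y, adjoint N y = 0 := by
    have h1 : Y ≤ LinearMap.ker ((adjoint N : H →L[ℂ] H) : H →ₗ[ℂ] H) := by
      refine Submodule.topologicalClosure_minimal _ ?_ (adjoint N).isClosed_ker
      rw [Submodule.span_le]
      rintro _ ⟨i, rfl⟩
      exact hNv i
    exact fun x hx => h1 hx
  have hYU : ∀ j : ℕ, ∀ y ∈ Y, (N ^ j) y ∈ Uᗮ := by
    intro j y hy
    by_cases hj : j < k + 1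
    · have h1 : Y ≤ (Uᗮ).comap ((N ^ j : H →L[ℂ] H) : H →ₗ[ℂ] H) := by
        refine Submodule.topologicalClosure_minimal _ ?_
          ((Submodule.isClosed_orthogonal U).preimage (N ^ j).continuous)
        rw [Submodule.span_le]
        rintro _ ⟨i, rfl⟩
        change (N ^ j) (v i) ∈ Uᗮ
        rw [hU, Submodule.orthogonal_closure, Submodule.mem_orthogonal]
        intro x hx
        induction hx using Submodule.span_induction with
        | mem x hx =>
          obtain ⟨l, rfl⟩ := hx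
          rw [← inner_conj_symm, huv i l j hj, map_zero]
        | zero => exact inner_zero_left _
        | add x y _ _ h1 h2 => rw [inner_add_left, h1, h2, add_zero]
        | smul c x _ h1 => rw [inner_smul_left, h1, mul_zero]
      exact h1 hy
    · have h1 : N ^ j = 0 := by
        obtain ⟨r, rfl⟩ := Nat.exists_eq_add_of_le (not_lt.1 hj)
        rw [pow_add, hN1, zero_mul]
      rw [h1]
      exact Submodule.zero_mem _
  let V : H →L[ℂ] H := Y.subtypeL ∘L (e.symm.toContinuousLinearEquiv : U →L[ℂ] Y) ∘L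
    U.orthogonalProjectionOnto
  have hVdef : ∀ x, V x = (e.symm (U.orthogonalProjectionOnto x) : H) := fun x => rfl
  have hV0 : ∀ x ∈ Uᗮ, V x = 0 := fun x hx => by
    rw [hVdef, Submodule.orthogonalProjectionOnto_eq_zero_iff.2 hx, map_zero]
    rfl
  have hVY : ∀ x, V x ∈ Y := fun x => (e.symm (U.orthogonalProjectionOnto x)).2
  have hVe : ∀ y : Y, V (e y : H) = y := fun y => by
    rw [hVdef, Submodule.orthogonalProjectionOnto_mem_subspace_eq_self, e.symm_apply_apply]
  have hVn : ‖V‖ ≤ 1 := by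
    refine ContinuousLinearMap.opNorm_le_bound _ zero_le_one fun x => ?_
    rw [hVdef, one_mul]
    have h1 : ‖(e.symm (U.orthogonalProjectionOnto x) : H)‖ = ‖U.orthogonalProjectionOnto x‖ :=
      e.symm.norm_map _
    rw [h1]
    exact U.norm_orthogonalProjectionOnto_apply_le x
  have hVV : ∀ y ∈ Y, V y = 0 := fun y hy => hV0 y (by simpa using hYU 0 y hy)
  have hYo : ∀ y ∈ Y, ∀ x ∈ U, inner ℂ y x = 0 := fun y hy x hx => by
    have h1 := (Submodule.mem_orthogonal U _).1 (show y ∈ Uᗮ by simpa using hYU 0 y hy) x hx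
    rw [← inner_conj_symm, h1, map_zero]
  refine ⟨Y, hYc, hYi, N + (δ : ℂ) • (N ∘L V),
    Y.subtypeL - ((δ⁻¹ : ℝ) : ℂ) • (U.subtypeL ∘L (e.toContinuousLinearEquiv : Y →L[ℂ] U)),
    Y.orthogonalProjectionOnto, ⟨k + k, nil_add hN fun j => ?_⟩, ?_, fun y => ?_, fun y => ?_,
    fun x => ?_⟩
  · ext x
    have h1 : V ((N ^ (j + 1)) (V x)) = 0 := hV0 _ (hYU (j + 1) _ (hVY x))
    have h2 : (((δ : ℂ) • (N ∘L V)) * N ^ j * ((δ : ℂ) • (N ∘L V))) x
        = (δ : ℂ) • N (V ((N ^ j) ((δ : ℂ) • N (V x)))) := rfl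
    rw [h2]
    rw [map_smul, map_smul]
    have h3 : (N ^ j) (N (V x)) = (N ^ (j + 1)) (V x) := by rw [pow_succ]; rfl
    rw [h3, h1]
    simp
  · rw [add_sub_cancel_left, norm_smul, Complex.norm_real, Real.norm_eq_abs, abs_of_pos hδ]
    refine mul_le_mul_of_nonneg_left ?_ hδ.le
    refine (ContinuousLinearMap.opNorm_comp_le N V).trans ?_
    exact mul_le_of_le_one_right (norm_nonneg _) hVn
  · change Y.orthogonalProjectionOnto ((y : H) - ((δ⁻¹ : ℝ) : ℂ) • (e y : H)) = y
    have h1 : Y.orthogonalProjectionOnto (e y : H) = 0 := by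
      rw [Submodule.orthogonalProjectionOnto_eq_zero_iff, Submodule.mem_orthogonal]
      exact fun z hz => hYo z hz _ (e y).2
    rw [map_sub, map_smul, h1, smul_zero, sub_zero,
      Submodule.orthogonalProjectionOnto_mem_subspace_eq_self]
  · change N ((y : H) - ((δ⁻¹ : ℝ) : ℂ) • (e y : H)) +
      (δ : ℂ) • N (V ((y : H) - ((δ⁻¹ : ℝ) : ℂ) • (e y : H))) = 0
    rw [map_sub, map_smul, hUN _ (e y).2, map_sub, map_smul, hVe, hVV _ y.2, zero_sub, map_neg,
      map_smul, smul_zero, sub_zero, smul_neg, smul_smul, ← Complex.ofReal_mul,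
      mul_inv_cancel₀ hδ.ne', Complex.ofReal_one, one_smul, add_neg_cancel]
  · have h1 : ∀ z, Y.orthogonalProjectionOnto (N z) = 0 := fun z => by
      rw [Submodule.orthogonalProjectionOnto_eq_zero_iff, Submodule.mem_orthogonal]
      intro y hy
      rw [← ContinuousLinearMap.adjoint_inner_left, hYN y hy, inner_zero_left]
    change Y.orthogonalProjectionOnto (N x + (δ : ℂ) • N (V x)) = 0
    rw [map_add, map_smul, h1, h1, smul_zero, add_zero]

end Vale.Agent.P131.H97
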