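import Vale.Agent.P131.H97.Win

/-!
Perturbation of a quasinilpotent operator to one with an almost splitting zero summand.
-/

namespace Vale.Agent.P131.H97

open Module Vale.Agent.P131.H856

variable {H : Type*} [NormedAddCommGroup H] [InnerProductSpace ℂ H]

/-- expansion of a power when the perturbation meets itself trivially -/
lemma add_pow_expand {R : Type*} [Ring R] {A B : R} {m : ℕ}
    (hB : ∀ j : ℕ, j < m → B * A ^ j * B = 0) (p : ℕ) (hp : p ≤ m + 1) :
    (A + B) ^ p = A ^ p + ∑ i ∈ Finset.range p, A ^ i * B * A ^ (p - 1 - i) := by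
  have h1 : ∀ q : ℕ, q ≤ m → B * (A + B) ^ q = B * A ^ q := by
    intro q
    induction q with
    | zero => intro _; simp
    | succ q ih =>
      intro hq
      rw [pow_succ, ← mul_assoc, ih (by omega), mul_add, hB q (by omega), add_zero, pow_succ,
        mul_assoc]
  induction p with
  | zero => simp
  | succ p ih =>
    rw [pow_succ' (A + B), add_mul, h1 p (by omega), ih (by omega), mul_add, ← pow_succ',
      Finset.sum_range_succ', Finset.mul_sum]
    have e1 : ∑ i ∈ Finset.range p, A * (A ^ i * B * A ^ (p - 1 - i)) =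
        ∑ k ∈ Finset.range p, A ^ (k + 1) * B * A ^ (p + 1 - 1 - (k + 1)) := by
      refine Finset.sum_congr rfl fun i hi => ?_
      have e2 : p + 1 - 1 - (i + 1) = p - 1 - i := by omega
      rw [e2, pow_succ']
      simp only [mul_assoc]
    rw [e1, pow_zero, one_mul, Nat.sub_zero, Nat.add_sub_cancel]
    abel

/-- a quasinilpotent operator on an infinite-dimensional space is small on some unit vector
orthogonal to a given finite set -/
lemma qn_small [CompleteSpace H] (hH : ¬ FiniteDimensional ℂ H) {N : H →L[ℂ] H} (hN : QN N)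
    (F : Finset H) {η : ℝ} (hη : 0 < η) :
    ∃ x : H, ‖x‖ = 1 ∧ (∀ y ∈ F, inner ℂ y x = 0) ∧ ‖N x‖ ≤ η := by
  classical
  by_contra hcon
  push Not at hcon
  have hlow : ∀ x : H, (∀ y ∈ F, inner ℂ y x = 0) → η * ‖x‖ ≤ ‖N x‖ := by
    intro x hx
    by_cases h0 : x = 0
    · rw [h0]; simp
    · have hn : 0 < ‖x‖ := norm_pos_iff.2 h0
      have h1 := hcon (((‖x‖⁻¹ : ℝ) : ℂ) • x) (by
        rw [norm_smul, Complex.norm_real, Real.norm_eq_abs, abs_inv, abs_norm,
          inv_mul_cancel₀ hn.ne']) (fun y hy => by rw [inner_smul_right, hx y hy, mul_zero])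
      rw [map_smul, norm_smul, Complex.norm_real, Real.norm_eq_abs, abs_inv, abs_norm,
        lt_inv_mul_iff₀ hn] at h1
      rw [mul_comm]
      exact h1.le
  have htop : ¬ FiniteDimensional ℂ (⊤ : Submodule ℂ H) := fun h =>
    hH (Module.finite_def.2 ((Submodule.fg_top (⊤ : Submodule ℂ H)).1 (Module.finite_def.1 h)))
  have hJ : ∀ J : ℕ, ∃ x : H, ‖x‖ = 1 ∧ η ^ J ≤ ‖(N ^ J) x‖ := by
    intro J
    obtain ⟨x, -, hx1, hx2⟩ := exists_unit_orth (⊤ : Submodule ℂ H) htop
      ((Finset.range J).biUnion fun i => F.image fun y => (ContinuousLinearMap.adjoint N ^ i) y)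
    have h1 : ∀ i < J, ∀ y ∈ F, inner ℂ y ((N ^ i) x) = 0 := by
      intro i hi y hy
      have h2 := hx2 ((ContinuousLinearMap.adjoint N ^ i) y) (Finset.mem_biUnion.2
        ⟨i, Finset.mem_range.2 hi, Finset.mem_image_of_mem _ hy⟩)
      rw [adj_pow, ContinuousLinearMap.adjoint_inner_left] at h2
      exact h2
    refine ⟨x, hx1, ?_⟩
    have h3 : ∀ j ≤ J, η ^ j ≤ ‖(N ^ j) x‖ := by
      intro j
      induction j with
      | zero => intro _; simp [hx1]
      | succ j ih =>
        intro hj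
        have h4 := hlow _ (h1 j (by omega))
        have h5 : (N ^ (j + 1)) x = N ((N ^ j) x) := by rw [pow_succ']; rfl
        rw [h5, pow_succ']
        exact (mul_le_mul_of_nonneg_left (ih (by omega)) hη.le).trans h4
    exact h3 J le_rfl
  obtain ⟨K, hK⟩ := hN (max 0 (Real.log (2 / η))) (le_max_left _ _)
  set L := max 0 (Real.log (2 / η)) with hL
  have h2 : 2 ≤ η * Real.exp L := by
    have h3 : 2 / η ≤ Real.exp L := by
      calc 2 / η = Real.exp (Real.log (2 / η)) := (Real.exp_log (by positivity)).symm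
        _ ≤ Real.exp L := Real.exp_le_exp.2 (le_max_right _ _)
    rw [div_le_iff₀ hη] at h3
    linarith
  obtain ⟨J, hJK⟩ := pow_unbounded_of_one_lt (Real.exp K) (one_lt_two : (1 : ℝ) < 2)
  obtain ⟨x, hx1, hx2⟩ := hJ J
  have h4 := hK J x
  rw [hx1, mul_one] at h4
  have h5 : (2 : ℝ) ^ J ≤ Real.exp K := by
    calc (2 : ℝ) ^ J ≤ (η * Real.exp L) ^ J := pow_le_pow_left₀ (by norm_num) h2 J
      _ = η ^ J * Real.exp (L * J) := by
          rw [mul_pow, ← Real.exp_nat_mul]
          congr 2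
          ring
      _ ≤ Real.exp (K - L * J) * Real.exp (L * J) :=
          mul_le_mul_of_nonneg_right (hx2.trans h4) (Real.exp_pos _).le
      _ = Real.exp K := by rw [← Real.exp_add]; congr 1; ring
  exact absurd h5 (not_le.2 hJK)

lemma qn_adj [CompleteSpace H] {N : H →L[ℂ] H} (hN : QN N) :
    QN (ContinuousLinearMap.adjoint N) := by
  intro L hL
  obtain ⟨K, hK⟩ := hN.norm_pow_le hL
  refine ⟨K, fun k x => ?_⟩
  refine (ContinuousLinearMap.le_opNorm _ x).trans (mul_le_mul_of_nonneg_right ?_ (norm_nonneg _))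
  rw [adj_pow, LinearIsometryEquiv.norm_map]
  exact hK k

/-- the two sequences -/
lemma exists_seqs2 [CompleteSpace H] (hH : ¬ FiniteDimensional ℂ H) {N : H →L[ℂ] H}
    (hN : QN N) (m : ℕ) {η : ℝ} (hη : 0 < η) :
    ∃ u v : ℕ → H, Orthonormal ℂ u ∧ Orthonormal ℂ v ∧ (∀ i, ‖N (u i)‖ ≤ η * (1 / 2) ^ i) ∧
      (∀ i, ‖(ContinuousLinearMap.adjoint N) (v i)‖ ≤ η * (1 / 2) ^ i) ∧
      ∀ i l j, j < m → inner ℂ ((N ^ j) (v i)) (u l) = 0 := by
  classical
  obtain ⟨f, hf1, hf2⟩ := exists_seq_of_forall_finset_exists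
    (fun p : (H × H) × ℕ => ‖p.1.1‖ = 1 ∧ ‖p.1.2‖ = 1 ∧ ‖N p.1.1‖ ≤ η * (1 / 2) ^ p.2 ∧
      ‖ContinuousLinearMap.adjoint N p.1.2‖ ≤ η * (1 / 2) ^ p.2 ∧
      ∀ j < m, inner ℂ ((N ^ j) p.1.2) p.1.1 = 0)
    (fun p q : (H × H) × ℕ => inner ℂ p.1.1 q.1.1 = 0 ∧ inner ℂ p.1.2 q.1.2 = 0 ∧
      (∀ j < m, inner ℂ ((N ^ j) p.1.2) q.1.1 = 0) ∧
      (∀ j < m, inner ℂ ((N ^ j) q.1.2) p.1.1 = 0) ∧ p.2 < q.2) (by
    intro s hs
    have hi : ∀ p ∈ s, p.2 < s.sup (fun p => p.2) + 1 := fun p hp =>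
      Nat.lt_succ_of_le (Finset.le_sup (f := fun p : (H × H) × ℕ => p.2) hp)
    obtain ⟨u, hu2, hu3, hu1⟩ := qn_small hH hN
      (s.image (fun p => p.1.1) ∪ (Finset.range m).biUnion fun j => s.image fun p => (N ^ j) p.1.2)
      (η := η * (1 / 2) ^ (s.sup (fun p => p.2) + 1)) (by positivity)
    obtain ⟨v, hv2, hv3, hv1⟩ := qn_small hH (qn_adj hN)
      (s.image (fun p => p.1.2) ∪ (Finset.range m).biUnion fun j =>
        (insert u (s.image (fun p => p.1.1))).image fun x => (ContinuousLinearMap.adjoint N ^ j) x)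
      (η := η * (1 / 2) ^ (s.sup (fun p => p.2) + 1)) (by positivity)
    have hadj : ∀ j x, inner ℂ ((ContinuousLinearMap.adjoint N ^ j) x) v = 0 →
        inner ℂ ((N ^ j) v) x = 0 := by
      intro j x h
      rw [adj_pow] at h
      rw [← ContinuousLinearMap.adjoint_inner_right, ← inner_conj_symm, h, map_zero]
    refine ⟨((u, v), s.sup (fun p => p.2) + 1), ⟨hu2, hv2, hu1, hv1, fun j hj =>
      hadj j u (hv3 _ ?_)⟩, fun p hp =>
      ⟨hu3 _ ?_, hv3 _ ?_, fun j hj => hu3 _ ?_, fun j hj => hadj j _ (hv3 _ ?_), hi p hp⟩⟩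
    · refine Finset.mem_union_right _ (Finset.mem_biUnion.2 ⟨j, Finset.mem_range.2 hj, ?_⟩)
      exact Finset.mem_image_of_mem _ (Finset.mem_insert_self _ _)
    · exact Finset.mem_union_left _ (Finset.mem_image_of_mem (fun p : (H × H) × ℕ => p.1.1) hp)
    · exact Finset.mem_union_left _ (Finset.mem_image_of_mem (fun p : (H × H) × ℕ => p.1.2) hp)
    · refine Finset.mem_union_right _ (Finset.mem_biUnion.2 ⟨j, Finset.mem_range.2 hj, ?_⟩)
      exact Finset.mem_image_of_mem (fun p : (H × H) × ℕ => (N ^ j) p.1.2) hp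
    · refine Finset.mem_union_right _ (Finset.mem_biUnion.2 ⟨j, Finset.mem_range.2 hj, ?_⟩)
      exact Finset.mem_image_of_mem _ (Finset.mem_insert_of_mem
        (Finset.mem_image_of_mem (fun p : (H × H) × ℕ => p.1.1) hp)))
  have hsymm : ∀ x y : H, inner ℂ x y = 0 → inner ℂ y x = 0 := fun x y h => by
    rw [← inner_conj_symm, h, map_zero]
  have hidx : ∀ i, i ≤ (f i).2 := by
    intro i
    induction i with
    | zero => exact Nat.zero_le _
    | succ i ih =>
      have := (hf2 i (i + 1) (Nat.lt_succ_self i)).2.2.2.2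
      omega
  have hpow : ∀ i, η * (1 / 2 : ℝ) ^ (f i).2 ≤ η * (1 / 2) ^ i := fun i =>
    mul_le_mul_of_nonneg_left (pow_le_pow_of_le_one (by norm_num) (by norm_num) (hidx i)) hη.le
  refine ⟨fun n => (f n).1.1, fun n => (f n).1.2, ⟨fun i => (hf1 i).1, fun i j hij => ?_⟩,
    ⟨fun i => (hf1 i).2.1, fun i j hij => ?_⟩, fun i => (hf1 i).2.2.1.trans (hpow i),
    fun i => (hf1 i).2.2.2.1.trans (hpow i), fun i l j hj => ?_⟩
  · rcases lt_or_gt_of_ne hij with h | h
    · exact (hf2 _ _ h).1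
    · exact hsymm _ _ (hf2 _ _ h).1
  · rcases lt_or_gt_of_ne hij with h | h
    · exact (hf2 _ _ h).2.1
    · exact hsymm _ _ (hf2 _ _ h).2.1
  · rcases lt_trichotomy i l with h | h | h
    · exact (hf2 _ _ h).2.2.1 j hj
    · rw [h]; exact (hf1 l).2.2.2.2 j hj
    · exact (hf2 _ _ h).2.2.2.1 j hj

/-- an operator which is small on an orthonormal sequence is small on its closed span -/
lemma small_on_span {G : Type*} [NormedAddCommGroup G] [InnerProductSpace ℂ G]
    {A : H →L[ℂ] G} {u : ℕ → H} (hu : Orthonormal ℂ u) {η : ℝ} (hη : 0 < η)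
    (hA : ∀ i, ‖A (u i)‖ ≤ η * (1 / 2) ^ i) :
    ∀ x ∈ (Submodule.span ℂ (Set.range u)).topologicalClosure, ‖A x‖ ≤ 2 * η * ‖x‖ := by
  have h1 : ∀ x ∈ Submodule.span ℂ (Set.range u), ‖A x‖ ≤ 2 * η * ‖x‖ := by
    intro x hx
    obtain ⟨l, rfl⟩ := (Finsupp.mem_span_range_iff_exists_finsupp).1 hx
    set x := l.sum fun i a => a • u i with hxdef
    have hl : ∀ i, ‖l i‖ ≤ ‖x‖ := by
      intro i
      have h2 : inner ℂ (u i) x = l i := by
        have := hu.inner_right_finsupp l i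
        rw [Finsupp.linearCombination_apply] at this
        exact this
      rw [← h2]
      refine (norm_inner_le_norm _ _).trans ?_
      rw [hu.1 i, one_mul]
    have h3 : A x = ∑ i ∈ l.support, l i • A (u i) := by
      rw [hxdef, Finsupp.sum, map_sum]
      refine Finset.sum_congr rfl fun i _ => ?_
      rw [map_smul]
    rw [h3]
    calc ‖∑ i ∈ l.support, l i • A (u i)‖ ≤ ∑ i ∈ l.support, ‖x‖ * (η * (1 / 2) ^ i) := by
          refine (norm_sum_le _ _).trans (Finset.sum_le_sum fun i _ => ?_)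
          rw [norm_smul]
          exact mul_le_mul (hl i) (hA i) (norm_nonneg _) (norm_nonneg _)
      _ = (‖x‖ * η) * ∑ i ∈ l.support, (1 / 2 : ℝ) ^ i := by
          rw [Finset.mul_sum]
          exact Finset.sum_congr rfl fun i _ => by ring
      _ ≤ (‖x‖ * η) * 2 := by
          refine mul_le_mul_of_nonneg_left ?_ (by positivity)
          have h4 := summable_geometric_two.sum_le_tsum l.support (fun i _ => by positivity)
          rw [tsum_geometric_two] at h4
          exact h4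
      _ = 2 * η * ‖x‖ := by ring
  have h2 : IsClosed {x : H | ‖A x‖ ≤ 2 * η * ‖x‖} :=
    isClosed_le (A.continuous.norm) (continuous_const.mul continuous_norm)
  intro x hx
  have h3 : closure ((Submodule.span ℂ (Set.range u) : Submodule ℂ H) : Set H) ⊆
      {x : H | ‖A x‖ ≤ 2 * η * ‖x‖} := closure_minimal (fun y hy => h1 y hy) h2
  exact h3 hx

end Vale.Agent.P131.H97
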