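import Vale.Agent.P131.H97.QPert

/-!
Perturbation of a quasinilpotent operator, second part.
-/

namespace Vale.Agent.P131.H97

open Module Vale.Agent.P131.H856

variable {H : Type*} [NormedAddCommGroup H] [InnerProductSpace ℂ H]

open ContinuousLinearMap in
theorem exists_pert2 [CompleteSpace H] [TopologicalSpace.SeparableSpace H]
    (hH : ¬ FiniteDimensional ℂ H) {N : H →L[ℂ] H} (hN : QN N) (n : ℕ) {δ : ℝ} (hδ : 0 < δ)
    {η : ℝ} (hη : 0 < η) :
    ∃ Y : Submodule ℂ H, IsClosed (Y : Set H) ∧ ¬ FiniteDimensional ℂ Y ∧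
      ∃ (N' : H →L[ℂ] H) (a : Y →L[ℂ] H) (b : H →L[ℂ] Y),
        ‖N' ^ (n + 1)‖ ≤ ‖N ^ (n + 1)‖ +
          ∑ i ∈ Finset.range (n + 1), ‖N ^ i‖ * (δ * ‖N‖) * ‖N ^ (n - i)‖ ∧
        ‖N' - N‖ ≤ δ * ‖N‖ ∧ (∀ y, b (a y) = y) ∧ (∀ y, ‖N' (a y)‖ ≤ η * ‖y‖) ∧
        (∀ x, ‖b (N' x)‖ ≤ η * ‖x‖) ∧ (∀ y, ‖a y‖ ≤ (1 + δ⁻¹) * ‖y‖) ∧ ∀ x, ‖b x‖ ≤ ‖x‖ := by
  have hsc : SecondCountableTopology H := UniformSpace.secondCountable_of_separable H
  set η₀ : ℝ := η / (2 * (1 + δ + δ⁻¹)) with hη₀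
  have hδi : 0 < δ⁻¹ := inv_pos.2 hδ
  have hη₀p : 0 < η₀ := by positivity
  have hηe : 2 * η₀ * (1 + δ + δ⁻¹) = η := by
    rw [hη₀]; field_simp
  obtain ⟨u, v, hu, hv, hNu, hNv, huv⟩ := exists_seqs2 hH hN (n + 2) hη₀p
  set U : Submodule ℂ H := (Submodule.span ℂ (Set.range u)).topologicalClosure with hU
  set Y : Submodule ℂ H := (Submodule.span ℂ (Set.range v)).topologicalClosure with hY
  have hUc : IsClosed (U : Set H) := Submodule.isClosed_topologicalClosure _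
  have hYc : IsClosed (Y : Set H) := Submodule.isClosed_topologicalClosure _
  have : CompleteSpace U := hUc.completeSpace_coe
  have : CompleteSpace Y := hYc.completeSpace_coe
  have hUi := closedSpan_infinite hu
  have hYi := closedSpan_infinite hv
  obtain ⟨e⟩ := Vale.Agent.P131.exists_equiv Y U hYi hUi
  have hUN : ∀ x ∈ U, ‖N x‖ ≤ 2 * η₀ * ‖x‖ := small_on_span hu hη₀p hNu
  have hYN : ∀ y ∈ Y, ‖adjoint N y‖ ≤ 2 * η₀ * ‖y‖ := small_on_span hv hη₀p hNv
  have hYU : ∀ j < n + 2, ∀ y ∈ Y, (N ^ j) y ∈ Uᗮ := by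
    intro j hj y hy
    have h1 : Y ≤ (Uᗮ).comap ((N ^ j : H →L[ℂ] H) : H →ₗ[ℂ] H) := by
      refine Submodule.topologicalClosure_minimal _ ?_
        ((Submodule.isClosed_orthogonal U).preimage (N ^ j).continuous)
      rw [Submodule.span_le]
      rintro _ ⟨i, rfl⟩
      change (N ^ j) (v i) ∈ Uᗮ
      rw [hU, Submodule.orthogonal_closure, Submodule.mem_orthogonal]
      intro x hx
      induction hx using Submodule.span_induction with
      | mem x hx =>
        obtain ⟨l, rfl⟩ := hx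
        rw [← inner_conj_symm, huv i l j hj, map_zero]
      | zero => exact inner_zero_left _
      | add x y _ _ h1 h2 => rw [inner_add_left, h1, h2, add_zero]
      | smul c x _ h1 => rw [inner_smul_left, h1, mul_zero]
    exact h1 hy
  let V : H →L[ℂ] H := Y.subtypeL ∘L (e.symm.toContinuousLinearEquiv : U →L[ℂ] Y) ∘L
    U.orthogonalProjectionOnto
  have hVdef : ∀ x, V x = (e.symm (U.orthogonalProjectionOnto x) : H) := fun x => rfl
  have hV0 : ∀ x ∈ Uᗮ, V x = 0 := fun x hx => by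
    rw [hVdef, Submodule.orthogonalProjectionOnto_eq_zero_iff.2 hx, map_zero]
    rfl
  have hVY : ∀ x, V x ∈ Y := fun x => (e.symm (U.orthogonalProjectionOnto x)).2
  have hVe : ∀ y : Y, V (e y : H) = y := fun y => by
    rw [hVdef, Submodule.orthogonalProjectionOnto_mem_subspace_eq_self, e.symm_apply_apply]
  have hVx : ∀ x, ‖V x‖ ≤ ‖x‖ := fun x => by
    rw [hVdef]
    have h1 : ‖(e.symm (U.orthogonalProjectionOnto x) : H)‖ = ‖U.orthogonalProjectionOnto x‖ :=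
      e.symm.norm_map _
    rw [h1]
    exact U.norm_orthogonalProjectionOnto_apply_le x
  have hVn : ‖V‖ ≤ 1 := by
    refine ContinuousLinearMap.opNorm_le_bound _ zero_le_one fun x => ?_
    rw [one_mul]
    exact hVx x
  have hVV : ∀ y ∈ Y, V y = 0 := fun y hy => hV0 y (by simpa using hYU 0 (by omega) y hy)
  have hYo : ∀ y ∈ Y, ∀ x ∈ U, inner ℂ y x = 0 := fun y hy x hx => by
    have h1 := (Submodule.mem_orthogonal U _).1
      (show y ∈ Uᗮ by simpa using hYU 0 (by omega) y hy) x hx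
    rw [← inner_conj_symm, h1, map_zero]
  have hBn : ‖(δ : ℂ) • (N ∘L V)‖ ≤ δ * ‖N‖ := by
    rw [norm_smul, Complex.norm_real, Real.norm_eq_abs, abs_of_pos hδ]
    refine mul_le_mul_of_nonneg_left ?_ hδ.le
    refine (ContinuousLinearMap.opNorm_comp_le N V).trans ?_
    exact mul_le_of_le_one_right (norm_nonneg _) hVn
  refine ⟨Y, hYc, hYi, N + (δ : ℂ) • (N ∘L V),
    Y.subtypeL - ((δ⁻¹ : ℝ) : ℂ) • (U.subtypeL ∘L (e.toContinuousLinearEquiv : Y →L[ℂ] U)),
    Y.orthogonalProjectionOnto, ?_, ?_, fun y => ?_, fun y => ?_, fun x => ?_, fun y => ?_,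
    fun x => Y.norm_orthogonalProjectionOnto_apply_le x⟩
  · have hB : ∀ j : ℕ, j < n → ((δ : ℂ) • (N ∘L V)) * N ^ j * ((δ : ℂ) • (N ∘L V)) = 0 := by
      intro j hj
      ext x
      have h1 : V ((N ^ (j + 1)) (V x)) = 0 := hV0 _ (hYU (j + 1) (by omega) _ (hVY x))
      have h2 : (((δ : ℂ) • (N ∘L V)) * N ^ j * ((δ : ℂ) • (N ∘L V))) x
          = (δ : ℂ) • N (V ((N ^ j) ((δ : ℂ) • N (V x)))) := rfl
      rw [h2]
      rw [map_smul, map_smul]
      have h3 : (N ^ j) (N (V x)) = (N ^ (j + 1)) (V x) := by rw [pow_succ]; rfl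
      rw [h3, h1]
      simp
    rw [add_pow_expand hB (n + 1) le_rfl]
    refine (norm_add_le _ _).trans (add_le_add le_rfl ((norm_sum_le _ _).trans
      (Finset.sum_le_sum fun i _ => ?_)))
    rw [Nat.add_sub_cancel]
    refine (norm_mul_le _ _).trans (mul_le_mul_of_nonneg_right ?_ (norm_nonneg _))
    exact (norm_mul_le _ _).trans (mul_le_mul_of_nonneg_left hBn (norm_nonneg _))
  · rw [add_sub_cancel_left]
    exact hBn
  · change Y.orthogonalProjectionOnto ((y : H) - ((δ⁻¹ : ℝ) : ℂ) • (e y : H)) = y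
    have h1 : Y.orthogonalProjectionOnto (e y : H) = 0 := by
      rw [Submodule.orthogonalProjectionOnto_eq_zero_iff, Submodule.mem_orthogonal]
      exact fun z hz => hYo z hz _ (e y).2
    rw [map_sub, map_smul, h1, smul_zero, sub_zero,
      Submodule.orthogonalProjectionOnto_mem_subspace_eq_self]
  · change ‖N ((y : H) - ((δ⁻¹ : ℝ) : ℂ) • (e y : H)) +
      (δ : ℂ) • N (V ((y : H) - ((δ⁻¹ : ℝ) : ℂ) • (e y : H)))‖ ≤ η * ‖y‖
    have h1 : N ((y : H) - ((δ⁻¹ : ℝ) : ℂ) • (e y : H)) +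
        (δ : ℂ) • N (V ((y : H) - ((δ⁻¹ : ℝ) : ℂ) • (e y : H))) =
        -(((δ⁻¹ : ℝ) : ℂ) • N (e y : H)) := by
      rw [map_sub, map_smul, map_sub, map_smul, hVe, hVV _ y.2, zero_sub, map_neg,
        map_smul, smul_neg, smul_smul, ← Complex.ofReal_mul,
        mul_inv_cancel₀ hδ.ne', Complex.ofReal_one, one_smul]
      abel
    rw [h1, norm_neg, norm_smul, Complex.norm_real, Real.norm_eq_abs, abs_of_pos hδi]
    have h2 := hUN _ (e y).2
    have h3 : ‖(e y : H)‖ = ‖y‖ := e.norm_map y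
    rw [h3] at h2
    calc δ⁻¹ * ‖N (e y : H)‖ ≤ δ⁻¹ * (2 * η₀ * ‖y‖) := mul_le_mul_of_nonneg_left h2 hδi.le
      _ ≤ η * ‖y‖ := by
          rw [← hηe]
          nlinarith [mul_nonneg (mul_nonneg hη₀p.le (norm_nonneg y)) hδ.le,
            mul_nonneg hη₀p.le (norm_nonneg y)]
  · have h1 : ∀ z, ‖Y.orthogonalProjectionOnto (N z)‖ ≤ 2 * η₀ * ‖z‖ := fun z => by
      set w := Y.orthogonalProjectionOnto (N z) with hw
      by_cases h0 : w = 0
      · rw [h0, norm_zero]; positivity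
      · have hwp : 0 < ‖w‖ := norm_pos_iff.2 h0
        have h2 : inner ℂ (w : H) (N z) = ((‖w‖ ^ 2 : ℝ) : ℂ) := by
          have h3 : inner ℂ w w = inner ℂ (w : H) (N z) := by
            rw [hw, Submodule.inner_orthogonalProjectionOnto_eq_of_mem_left]
          rw [← h3, inner_self_eq_norm_sq_to_K]
          norm_cast
        have h4 : ‖w‖ ^ 2 ≤ (2 * η₀ * ‖w‖) * ‖z‖ := by
          have h5 : ‖inner ℂ (w : H) (N z)‖ = ‖w‖ ^ 2 := by
            rw [h2, Complex.norm_real, Real.norm_eq_abs, abs_of_nonneg (by positivity)]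
          rw [← h5, ← ContinuousLinearMap.adjoint_inner_left]
          refine (norm_inner_le_norm _ _).trans (mul_le_mul_of_nonneg_right ?_ (norm_nonneg _))
          exact hYN _ w.2
        nlinarith
    change ‖Y.orthogonalProjectionOnto (N x + (δ : ℂ) • N (V x))‖ ≤ η * ‖x‖
    have h2 : N x + (δ : ℂ) • N (V x) = N (x + (δ : ℂ) • V x) := by rw [map_add, map_smul]
    rw [h2]
    refine (h1 _).trans ?_
    have h3 : ‖x + (δ : ℂ) • V x‖ ≤ (1 + δ) * ‖x‖ := by
      refine (norm_add_le _ _).trans ?_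
      rw [norm_smul, Complex.norm_real, Real.norm_eq_abs, abs_of_pos hδ]
      nlinarith [hVx x, norm_nonneg x]
    calc 2 * η₀ * ‖x + (δ : ℂ) • V x‖ ≤ 2 * η₀ * ((1 + δ) * ‖x‖) :=
          mul_le_mul_of_nonneg_left h3 (by positivity)
      _ ≤ η * ‖x‖ := by
          rw [← hηe]
          nlinarith [mul_nonneg (mul_nonneg hη₀p.le (norm_nonneg x)) hδi.le]
  · change ‖(y : H) - ((δ⁻¹ : ℝ) : ℂ) • (e y : H)‖ ≤ _
    refine (norm_sub_le _ _).trans ?_
    rw [norm_smul, Complex.norm_real, Real.norm_eq_abs, abs_of_pos hδi]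
    have h3 : ‖(e y : H)‖ = ‖y‖ := e.norm_map y
    rw [h3, add_mul, one_mul]
    rfl

end Vale.Agent.P131.H97
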