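import Vale.Agent.P131.H97.Sum
import Mathlib.Order.Zorn

/-!
Decomposition of a Hilbert space into separable infinite-dimensional reducing subspaces.
-/

namespace Vale.Agent.P131.H97

open Module TopologicalSpace
open scoped ENNReal

variable {H : Type*} [NormedAddCommGroup H] [InnerProductSpace ℂ H]

lemma exists_orthonormal_seq (R : Submodule ℂ H) (hR : ¬ FiniteDimensional ℂ R) :
    ∃ u : ℕ → H, Orthonormal ℂ u ∧ ∀ i, u i ∈ R := by
  obtain ⟨f, hf1, hf2⟩ := exists_seq_of_forall_finset_exists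
    (fun x : H => ‖x‖ = 1 ∧ x ∈ R) (fun x y : H => inner ℂ x y = 0) (by
    intro s _
    obtain ⟨x, h1, h2, h3⟩ := exists_unit_orth R hR s
    exact ⟨x, ⟨h2, h1⟩, h3⟩)
  refine ⟨f, ⟨fun i => (hf1 i).1, fun i j hij => ?_⟩, fun i => (hf1 i).2⟩
  rcases lt_or_gt_of_ne hij with h | h
  · exact hf2 _ _ h
  · rw [← inner_conj_symm, hf2 _ _ h, map_zero]

/-- reducing, separable, infinite-dimensional, closed -/
def Red [CompleteSpace H] (Q : H →L[ℂ] H) (K : Submodule ℂ H) : Prop :=
  IsClosed (K : Set H) ∧ (∀ x ∈ K, Q x ∈ K) ∧ (∀ x ∈ K, ContinuousLinearMap.adjoint Q x ∈ K) ∧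
    IsSeparable (K : Set H) ∧ ¬ FiniteDimensional ℂ K

lemma closure_inv {A : H →L[ℂ] H} {K : Submodule ℂ H} (h : ∀ x ∈ K, A x ∈ K) :
    ∀ x ∈ K.topologicalClosure, A x ∈ K.topologicalClosure := by
  have h1 : K.topologicalClosure ≤ K.topologicalClosure.comap (A : H →ₗ[ℂ] H) :=
    Submodule.topologicalClosure_minimal _ (fun x hx => K.le_topologicalClosure (h x hx))
      (K.isClosed_topologicalClosure.preimage A.continuous)
  exact fun x hx => h1 hx

lemma span_inv {A : H →L[ℂ] H} {W : Set H} (h : ∀ x ∈ W, A x ∈ Submodule.span ℂ W) :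
    ∀ x ∈ Submodule.span ℂ W, A x ∈ Submodule.span ℂ W := by
  have h1 : Submodule.span ℂ W ≤ (Submodule.span ℂ W).comap (A : H →ₗ[ℂ] H) :=
    Submodule.span_le.2 h
  exact fun x hx => h1 hx

/-- a reducing separable subspace inside a given infinite-dimensional reducing one -/
lemma exists_red [CompleteSpace H] (Q : H →L[ℂ] H) {R : Submodule ℂ H} (hRc : IsClosed (R : Set H))
    (hR1 : ∀ x ∈ R, Q x ∈ R) (hR2 : ∀ x ∈ R, ContinuousLinearMap.adjoint Q x ∈ R)
    (hRi : ¬ FiniteDimensional ℂ R) : ∃ K : Submodule ℂ H, Red Q K ∧ K ≤ R := by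
  obtain ⟨u, hu, huR⟩ := exists_orthonormal_seq R hRi
  let A : Bool → (H →L[ℂ] H) := fun b => if b then Q else ContinuousLinearMap.adjoint Q
  let W : Set H := Set.range fun p : List Bool × ℕ => (p.1.map A).prod (u p.2)
  have hWc : W.Countable := Set.countable_range _
  have hAW : ∀ b, ∀ x ∈ W, A b x ∈ Submodule.span ℂ W := by
    rintro b _ ⟨⟨l, i⟩, rfl⟩
    refine Submodule.subset_span ⟨(b :: l, i), ?_⟩
    simp
  have hWR : W ⊆ R := by
    rintro _ ⟨⟨l, i⟩, rfl⟩
    induction l with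
    | nil => simpa using huR i
    | cons b l ih =>
      have h1 : ((b :: l).map A).prod (u i) = A b ((l.map A).prod (u i)) := by simp
      change ((b :: l).map A).prod (u i) ∈ R
      rw [h1]
      cases b
      · exact hR2 _ ih
      · exact hR1 _ ih
  let K : Submodule ℂ H := (Submodule.span ℂ W).topologicalClosure
  have huK : ∀ i, u i ∈ K := fun i =>
    Submodule.le_topologicalClosure _ (Submodule.subset_span ⟨([], i), by simp⟩)
  refine ⟨K, ⟨Submodule.isClosed_topologicalClosure _, ?_, ?_, ?_, ?_⟩, ?_⟩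
  · exact closure_inv (A := Q) (span_inv (A := Q) (hAW true))
  · exact closure_inv (A := ContinuousLinearMap.adjoint Q)
      (span_inv (A := ContinuousLinearMap.adjoint Q) (hAW false))
  · exact (hWc.isSeparable.span (R := ℂ)).closure
  · intro hfin
    have h1 : LinearIndependent ℂ (fun i => (⟨u i, huK i⟩ : K)) :=
      LinearIndependent.of_comp (Submodule.subtype _) (by exact hu.linearIndependent)
    exact Module.Finite.not_linearIndependent_of_infinite _ h1
  · exact Submodule.topologicalClosure_minimal _ (Submodule.span_le.2 hWR) hRc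

/-- the decomposition -/
theorem exists_decomp [CompleteSpace H] (hH : ¬ FiniteDimensional ℂ H) (Q : H →L[ℂ] H) :
    ∃ 𝒮 : Set (Submodule ℂ H), ∃ F : 𝒮 → Submodule ℂ H, 𝒮.Nonempty ∧ (∀ i, Red Q (F i)) ∧
      Pairwise (fun i j => F i ⟂ F j) ∧ (⨆ i, F i).topologicalClosure = ⊤ := by
  classical
  let S : Set (Set (Submodule ℂ H)) := {𝒮 | (∀ K ∈ 𝒮, Red Q K) ∧ 𝒮.Pairwise (fun K L => K ⟂ L)}
  obtain ⟨𝒮, h𝒮, hmax⟩ := zorn_subset S (by
    intro c hc hchain
    refine ⟨⋃₀ c, ⟨?_, ?_⟩, fun s hs => Set.subset_sUnion_of_mem hs⟩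
    · rintro K ⟨s, hs, hK⟩
      exact (hc hs).1 K hK
    · rw [Set.pairwise_sUnion hchain.directedOn]
      exact fun s hs => (hc hs).2)
  set R : Submodule ℂ H := (sSup 𝒮)ᗮ with hRdef
  have hRmem : ∀ x, x ∈ R ↔ ∀ K ∈ 𝒮, ∀ y ∈ K, inner ℂ y x = 0 := by
    intro x
    rw [hRdef, ← Submodule.sInf_orthogonal]
    simp only [Submodule.mem_iInf, Submodule.mem_orthogonal]
  have hRc : IsClosed (R : Set H) := Submodule.isClosed_orthogonal _
  have hR1 : ∀ x ∈ R, Q x ∈ R := by
    intro x hx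
    rw [hRmem] at hx ⊢
    intro K hK y hy
    rw [← ContinuousLinearMap.adjoint_inner_left]
    exact hx K hK _ ((h𝒮.1 K hK).2.2.1 y hy)
  have hR2 : ∀ x ∈ R, ContinuousLinearMap.adjoint Q x ∈ R := by
    intro x hx
    rw [hRmem] at hx ⊢
    intro K hK y hy
    rw [ContinuousLinearMap.adjoint_inner_right]
    exact hx K hK _ ((h𝒮.1 K hK).2.1 y hy)
  have hRL : ∀ L ∈ 𝒮, R ≤ Lᗮ := fun L hL x hx => by
    rw [Submodule.mem_orthogonal]
    exact (hRmem x).1 hx L hL
  have hRfin : FiniteDimensional ℂ R := by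
    by_contra hRi
    obtain ⟨K, hK, hKR⟩ := exists_red Q hRc hR1 hR2 hRi
    have hins : insert K 𝒮 ∈ S := by
      refine ⟨?_, ?_⟩
      · rintro L (rfl | hL)
        · exact hK
        · exact h𝒮.1 L hL
      · refine h𝒮.2.insert fun L hL _ => ?_
        have h1 : K ⟂ L := (Submodule.isOrtho_iff_le).2 (hKR.trans (hRL L hL))
        exact ⟨h1, h1.symm⟩
    have h1 : K ∈ 𝒮 := hmax hins (Set.subset_insert K 𝒮) (Set.mem_insert K 𝒮)
    have h2 : K = ⊥ := by
      rw [Submodule.eq_bot_iff]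
      intro x hx
      have h3 := (hRmem x).1 (hKR hx) K h1 x hx
      exact inner_self_eq_zero.1 h3
    apply hK.2.2.2.2
    rw [h2]
    infer_instance
  have hne : 𝒮.Nonempty := by
    by_contra hcon
    rw [Set.not_nonempty_iff_eq_empty] at hcon
    have h1 : R = ⊤ := by
      rw [Submodule.eq_top_iff']
      intro x
      rw [hRmem, hcon]
      intro K hK
      exact absurd hK (Set.notMem_empty K)
    rw [h1] at hRfin
    exact hH (Module.finite_def.2 ((Submodule.fg_top (⊤ : Submodule ℂ H)).1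
      (Module.finite_def.1 hRfin)))
  obtain ⟨K0, hK0⟩ := hne
  let F : 𝒮 → Submodule ℂ H := fun K =>
    if (K : Submodule ℂ H) = K0 then (K0 ⊔ R).topologicalClosure else K
  have hF0 : ∀ K : 𝒮, (K : Submodule ℂ H) = K0 → F K = (K0 ⊔ R).topologicalClosure :=
    fun K h => if_pos h
  have hF1 : ∀ K : 𝒮, (K : Submodule ℂ H) ≠ K0 → F K = K := fun K h => if_neg h
  have hred0 : Red Q (K0 ⊔ R).topologicalClosure := by
    have h0 := h𝒮.1 K0 hK0
    refine ⟨Submodule.isClosed_topologicalClosure _, ?_, ?_, ?_, ?_⟩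
    · refine closure_inv fun x hx => ?_
      obtain ⟨y, hy, z, hz, rfl⟩ := Submodule.mem_sup.1 hx
      rw [map_add]
      exact Submodule.add_mem_sup (h0.2.1 y hy) (hR1 z hz)
    · refine closure_inv fun x hx => ?_
      obtain ⟨y, hy, z, hz, rfl⟩ := Submodule.mem_sup.1 hx
      rw [map_add]
      exact Submodule.add_mem_sup (h0.2.2.1 y hy) (hR2 z hz)
    · have hRs : IsSeparable (R : Set H) := by
        obtain ⟨t, ht⟩ := (Submodule.fg_iff_finiteDimensional R).2 hRfin
        rw [← ht]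
        exact t.countable_toSet.isSeparable.span (R := ℂ)
      have h1 : K0 ⊔ R = Submodule.span ℂ ((K0 : Set H) ∪ R) := by
        rw [Submodule.span_union, Submodule.span_eq, Submodule.span_eq]
      rw [h1]
      exact ((h0.2.2.2.1.union hRs).span (R := ℂ)).closure
    · intro hfin
      apply h0.2.2.2.2
      have hle : K0 ≤ (K0 ⊔ R).topologicalClosure :=
        le_sup_left.trans (Submodule.le_topologicalClosure _)
      exact FiniteDimensional.of_injective (Submodule.inclusion hle)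
        (Submodule.inclusion_injective hle)
  have horth0 : ∀ L ∈ 𝒮, L ≠ K0 → (K0 ⊔ R).topologicalClosure ⟂ L := by
    intro L hL hLK
    rw [Submodule.isOrtho_iff_le]
    refine Submodule.topologicalClosure_minimal _ ?_ (Submodule.isClosed_orthogonal L)
    exact sup_le ((Submodule.isOrtho_iff_le).1 (h𝒮.2 hK0 hL hLK.symm)) (hRL L hL)
  refine ⟨𝒮, F, ⟨K0, hK0⟩, fun K => ?_, fun K L hKL => ?_, ?_⟩
  · by_cases h : (K : Submodule ℂ H) = K0
    · rw [hF0 K h]; exact hred0
    · rw [hF1 K h]; exact h𝒮.1 K K.2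
  · have hne : (K : Submodule ℂ H) ≠ L := fun h => hKL (Subtype.ext h)
    show F K ⟂ F L
    by_cases h : (K : Submodule ℂ H) = K0
    · have hL : (L : Submodule ℂ H) ≠ K0 := fun h' => hne (h.trans h'.symm)
      rw [hF0 K h, hF1 L hL]
      exact horth0 L L.2 hL
    · by_cases h' : (L : Submodule ℂ H) = K0
      · rw [hF0 L h', hF1 K h]
        exact (horth0 K K.2 h).symm
      · rw [hF1 K h, hF1 L h']
        exact h𝒮.2 K.2 L.2 hne
  · rw [Submodule.topologicalClosure_eq_top_iff, Submodule.eq_bot_iff]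
    intro x hx
    have h1 : ∀ K : 𝒮, x ∈ (F K)ᗮ := fun K =>
      Submodule.orthogonal_le (le_iSup F K) hx
    have h2 : ∀ K ∈ 𝒮, x ∈ Kᗮ := by
      intro K hK
      by_cases h : K = K0
      · have h3 := h1 ⟨K, hK⟩
        rw [hF0 ⟨K, hK⟩ h] at h3
        refine Submodule.orthogonal_le ?_ h3
        rw [h]
        exact le_sup_left.trans (Submodule.le_topologicalClosure _)
      · have h3 := h1 ⟨K, hK⟩
        rwa [hF1 ⟨K, hK⟩ h] at h3
    have h3 : x ∈ R := (hRmem x).2 fun K hK => (Submodule.mem_orthogonal K x).1 (h2 K hK)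
    have h4 : x ∈ Rᗮ := by
      have h5 := h1 ⟨K0, hK0⟩
      rw [hF0 ⟨K0, hK0⟩ rfl] at h5
      refine Submodule.orthogonal_le ?_ h5
      exact le_sup_right.trans (Submodule.le_topologicalClosure _)
    exact inner_self_eq_zero.1 ((Submodule.mem_orthogonal R x).1 h4 x h3)

end Vale.Agent.P131.H97
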