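import Vale.Agent.P131.H97.Dens
import Mathlib.Analysis.Normed.Lp.lpHolder
import Mathlib.Analysis.InnerProductSpace.l2Space

/-!
Amplification: the Hilbert sum of copies of an operator with transitive commutant.
-/

namespace Vale.Agent.P131.H97

open Module Vale.Agent.P131 Vale.Agent.P131.H856
open scoped ENNReal

variable {ι : Type*} {X : Type*} [NormedAddCommGroup X] [InnerProductSpace ℂ X]

/-- the amplification of an operator -/
noncomputable def amp (ι : Type*) (T : X →L[ℂ] X) : lp (fun _ : ι => X) 2 →L[ℂ] lp (fun _ : ι => X) 2 :=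
  lp.mapCLM 2 (fun _ => T) (norm_nonneg T) (fun _ => le_rfl)

lemma amp_apply (T : X →L[ℂ] X) (f : lp (fun _ : ι => X) 2) (i : ι) : amp ι T f i = T (f i) := rfl

/-- the matrix units with an operator entry -/
noncomputable def unit [DecidableEq ι] (A : X →L[ℂ] X) (i j : ι) :
    lp (fun _ : ι => X) 2 →L[ℂ] lp (fun _ : ι => X) 2 :=
  (lp.singleContinuousLinearMap ℂ (fun _ : ι => X) 2 j) ∘L A ∘L
    (lp.evalCLM ℂ (fun _ : ι => X) 2 i)

lemma unit_apply [DecidableEq ι] (A : X →L[ℂ] X) (i j : ι) (f : lp (fun _ : ι => X) 2) :
    unit A i j f = lp.single 2 j (A (f i)) := rfl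

lemma amp_single [DecidableEq ι] (T : X →L[ℂ] X) (j : ι) (x : X) :
    amp ι T (lp.single 2 j x) = lp.single 2 j (T x) := by
  ext k
  rw [amp_apply]
  by_cases h : k = j
  · subst h
    rw [lp.single_apply_self, lp.single_apply_self]
  · rw [lp.single_apply_ne _ _ _ h, lp.single_apply_ne _ _ _ h, map_zero]

/-- the amplification has transitive commutant -/
theorem TC_amp [Nonempty ι] {T : X →L[ℂ] X} (h : TC T) : TC (amp ι T) := by
  classical
  have : Fact ((2 : ℝ≥0∞) ≠ ∞) := ⟨by norm_num⟩
  refine ⟨fun z hz => h.1 z ?_, fun M hM hinv => ?_⟩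
  · ext x
    obtain ⟨i⟩ := ‹Nonempty ι›
    have h1 := congrArg (fun B : lp (fun _ : ι => X) 2 →L[ℂ] lp (fun _ : ι => X) 2 =>
      (B (lp.single 2 i x)) i) hz
    simp only [amp_single] at h1
    rw [lp.single_apply_self] at h1
    rw [h1]
    change (z • lp.single 2 i x : lp (fun _ : ι => X) 2) i = z • x
    rw [lp.coeFn_smul, Pi.smul_apply, lp.single_apply_self]
  · by_cases hbot : M = ⊥
    · exact Or.inl hbot
    · right
      obtain ⟨f, hf, hf0⟩ := (Submodule.ne_bot_iff M).1 hbot
      obtain ⟨i, hi⟩ : ∃ i, f i ≠ 0 := by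
        by_contra hcon
        push Not at hcon
        exact hf0 (lp.ext (funext hcon))
      have hsingle : ∀ j : ι, ∀ x : X, lp.single 2 j x ∈ M := by
        intro j
        let M0 : Submodule ℂ X := M.comap (lp.lsingle (𝕜 := ℂ) (E := fun _ : ι => X) 2 j)
        have hM0c : IsClosed (M0 : Set X) := by
          have hc : Continuous (fun x : X => lp.single (E := fun _ : ι => X) 2 j x) :=
            (lp.isometry_single (E := fun _ : ι => X) (p := 2) j).continuous
          exact hM.preimage hc
        have hinv0 : ∀ A : X →L[ℂ] X, A ∘L T = T ∘L A → ∀ x ∈ M0, A x ∈ M0 := by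
          intro A hA x hx
          have hx' : lp.single 2 j x ∈ M := hx
          have hcomm : unit A j j ∘L amp ι T = amp ι T ∘L unit A j j := by
            refine ContinuousLinearMap.ext fun g => ?_
            change unit A j j (amp ι T g) = amp ι T (unit A j j g)
            rw [unit_apply, unit_apply, amp_single, amp_apply]
            have := congrArg (fun B : X →L[ℂ] X => B (g j)) hA
            change A (T (g j)) = T (A (g j)) at this
            rw [this]
          have h2 := hinv _ hcomm _ hx'
          rw [unit_apply, lp.single_apply_self] at h2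
          exact h2
        have hne : M0 ≠ ⊥ := by
          intro hb
          have hcomm : unit (ContinuousLinearMap.id ℂ X) i j ∘L amp ι T =
              amp ι T ∘L unit (ContinuousLinearMap.id ℂ X) i j := by
            refine ContinuousLinearMap.ext fun g => ?_
            change unit _ i j (amp ι T g) = amp ι T (unit _ i j g)
            rw [unit_apply, unit_apply, amp_single, amp_apply]
            rfl
          have h2 := hinv _ hcomm _ hf
          rw [unit_apply] at h2
          have h3 : f i ∈ M0 := h2
          rw [hb, Submodule.mem_bot] at h3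
          exact hi h3
        rcases h.2 M0 hM0c hinv0 with h3 | h3
        · exact absurd h3 hne
        · intro x
          have : x ∈ M0 := by rw [h3]; trivial
          exact this
      rw [Submodule.eq_top_iff']
      intro g
      have hs : HasSum (fun i => lp.single 2 i (g i)) g := lp.hasSum_single (by norm_num) g
      refine hM.mem_of_tendsto hs (Filter.Eventually.of_forall fun s => ?_)
      exact M.sum_mem fun i _ => hsingle i _

lemma QN_amp {T : X →L[ℂ] X} (h : QN T) : QN (amp ι T) := by
  intro L hL
  obtain ⟨K, hK⟩ := h L hL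
  refine ⟨K, fun k f => ?_⟩
  have h1 : ∀ k : ℕ, ∀ f i, ((amp ι T ^ k) f : lp (fun _ : ι => X) 2) i = (T ^ k) (f i) := by
    intro k
    induction k with
    | zero => intro f i; rfl
    | succ k ih =>
      intro f i
      have e1 : (amp ι T ^ (k + 1)) f = amp ι T ((amp ι T ^ k) f) := by rw [pow_succ']; rfl
      have e2 : (T ^ (k + 1)) (f i) = T ((T ^ k) (f i)) := by rw [pow_succ']; rfl
      rw [e1, e2, amp_apply, ih]
  have hc : 0 ≤ Real.exp (K - L * k) := (Real.exp_pos _).le
  have h2 : (amp ι T ^ k) f = lp.mapCLM 2 (fun _ => T ^ k) hc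
      (fun _ => ContinuousLinearMap.opNorm_le_bound _ hc (hK k)) f := by
    ext i
    rw [h1]
    rfl
  rw [h2]
  exact (ContinuousLinearMap.le_opNorm _ _).trans (mul_le_mul_of_nonneg_right
    (lp.norm_mapCLM_le 2 _ hc _) (norm_nonneg _))

end Vale.Agent.P131.H97
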