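import Vale.Agent.P131.H97.Red

/-!
Uniform approximation on all separable infinite-dimensional spaces at the same time.
-/

namespace Vale.Agent.P131.H97

open MeasureTheory Module Vale.Agent.P131 Vale.Agent.P131.H856
open scoped ENNReal

universe u

/-- the conjugate of an operator -/
def cj {X Y : Type*} [NormedAddCommGroup X] [InnerProductSpace ℂ X] [NormedAddCommGroup Y]
    [InnerProductSpace ℂ Y] (S : X ≃L[ℂ] Y) (T : X →L[ℂ] X) : Y →L[ℂ] Y :=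
  (S : X →L[ℂ] Y) ∘L T ∘L (S.symm : Y →L[ℂ] X)

/-- an operator with long windows of small weight in its similarity orbit -/
def Univ (T₀ : Hs →L[ℂ] Hs) : Prop :=
  ∀ (ε : ℝ), 0 < ε → ∀ n₀ : ℕ, ∃ S : Hs ≃L[ℂ] Hs,
    ∀ (H : Type u) [NormedAddCommGroup H] [InnerProductSpace ℂ H] [CompleteSpace H]
      [TopologicalSpace.SeparableSpace H], ¬ FiniteDimensional ℂ H → Window H (cj S T₀) ε n₀

/-- one operator with windows for all separable infinite-dimensional spaces -/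
theorem exists_window_all : ∃ T₀ : Hs →L[ℂ] Hs, TC T₀ ∧ QN T₀ ∧ Univ.{u} T₀ := by
  obtain ⟨T₀, hTC, hQN, hmod⟩ := exists_modified
  refine ⟨T₀, hTC, hQN, fun ε hε n₀ => ?_⟩
  obtain ⟨S, W, hW1, hW2, hT'⟩ := hmod ε hε (n₀ + 1)
  set T : Hs →L[ℂ] Hs := cj S T₀ with hTdef
  have hT : ∀ ξ : Hs, ∀ᵐ t : ℝ, ∀ n : ℤ,
      (T ξ : ℝ × ℤ → ℂ) (t, n) = (W t n : ℂ) * (ξ : ℝ × ℤ → ℂ) (t, n - 1) := hT'
  refine ⟨S, fun H _ _ _ _ hH => ⟨?_, ?_⟩⟩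
  · intro ξ
    let U : Hs →ₗᵢ[ℂ] Hs := Lp.compMeasurePreservingₗᵢ ℂ _ (mp_shift 0 1)
    have hU : (U ξ : ℝ × ℤ → ℂ) =ᵐ[mu] fun p => (ξ : ℝ × ℤ → ℂ) (p.1 - 0, p.2 - 1) :=
      Lp.coeFn_compMeasurePreserving ξ (mp_shift 0 1)
    have hUn : ‖U ξ‖ = ‖ξ‖ := U.norm_map ξ
    rw [← hUn]
    refine Lp.norm_le_mul_norm_of_ae_le_mul ?_
    have h1 := ae_mu_of (p := fun p : ℝ × ℤ => (T ξ : ℝ × ℤ → ℂ) p =
        (W p.1 p.2 : ℂ) * (ξ : ℝ × ℤ → ℂ) (p.1, p.2 - 1)) (hT ξ)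
    filter_upwards [h1, hU] with p h2 h3
    rw [h2, h3, sub_zero, norm_mul, Complex.norm_real, Real.norm_eq_abs,
      abs_of_nonneg (hW1 _ _).1]
    exact mul_le_mul_of_nonneg_right (hW1 _ _).2 (norm_nonneg _)
  · obtain ⟨K, hKc, hKi, hK0⟩ := exists_zeroFiber
    have : SecondCountableTopology Hs := UniformSpace.secondCountable_of_separable Hs
    have : CompleteSpace K := hKc.completeSpace_coe
    obtain ⟨e⟩ := exists_equiv H K hH hKi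
    let U : ℕ → Hs →ₗᵢ[ℂ] Hs := fun j => Lp.compMeasurePreservingₗᵢ ℂ _ (mp_shift 0 j)
    have hU : ∀ (j : ℕ) (ξ : Hs), ∀ᵐ t : ℝ, ∀ n : ℤ,
        (U j ξ : ℝ × ℤ → ℂ) (t, n) = (ξ : ℝ × ℤ → ℂ) (t - 0, n - j) := fun j ξ =>
      ae_mu_iff (p := fun p => (U j ξ : ℝ × ℤ → ℂ) p = (ξ : ℝ × ℤ → ℂ) (p.1 - 0, p.2 - j))
        (Lp.coeFn_compMeasurePreserving ξ (mp_shift 0 j))
    let E : ℕ → H →ₗᵢ[ℂ] Hs := fun j => (U j).comp (K.subtypeₗᵢ.comp e.toLinearIsometry)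
    have hE : ∀ (j : ℕ) (x : H), ∀ᵐ t : ℝ, ∀ n : ℤ,
        (E j x : ℝ × ℤ → ℂ) (t, n) = ((e x : Hs) : ℝ × ℤ → ℂ) (t, n - j) := by
      intro j x
      filter_upwards [hU j (e x : Hs)] with t ht n
      have := ht n
      rw [sub_zero] at this
      exact this
    refine ⟨E, fun j hj x => ?_, fun i j x y hij => ?_⟩
    · refine Lp.ext (ae_mu_of ?_)
      have hsm : ∀ᵐ t : ℝ, ∀ n : ℤ, (((ε : ℂ) • E (j + 1) x : Hs) : ℝ × ℤ → ℂ) (t, n) =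
          (ε : ℂ) * (E (j + 1) x : ℝ × ℤ → ℂ) (t, n) :=
        ae_mu_iff (p := fun p => (((ε : ℂ) • E (j + 1) x : Hs) : ℝ × ℤ → ℂ) p =
          (ε : ℂ) * (E (j + 1) x : ℝ × ℤ → ℂ) p) (Lp.coeFn_smul _ _)
      filter_upwards [hT (E j x), hE j x, hE (j + 1) x, hK0 _ (e x).2, hsm] with t h1 h2 h3 h4 h5 n
      show ((T (E j x) : Hs) : ℝ × ℤ → ℂ) (t, n) = (((ε : ℂ) • E (j + 1) x : Hs) : ℝ × ℤ → ℂ) (t, n)
      rw [h1, h5, h2, h3]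
      have e1 : n - 1 - (j : ℤ) = n - ((j + 1 : ℕ) : ℤ) := by push_cast; ring
      rw [e1]
      by_cases hn : n = ((j + 1 : ℕ) : ℤ)
      · rw [hW2 t n (by omega) (by omega)]
      · rw [h4 _ (by omega)]
        simp
    · rw [L2.inner_def]
      have h0 : ∀ᵐ p ∂mu, inner ℂ ((E i x : ℝ × ℤ → ℂ) p) ((E j y : ℝ × ℤ → ℂ) p) = 0 := by
        refine ae_mu_of ?_
        filter_upwards [hE i x, hE j y, hK0 _ (e x).2, hK0 _ (e y).2] with t h1 h2 h3 h4 n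
        rw [h1, h2]
        by_cases hn : n = (i : ℤ)
        · rw [h4 (n - j) (by omega), inner_zero_right]
        · rw [h3 (n - i) (by omega), inner_zero_left]
      rw [integral_congr_ae h0, integral_zero]

/-- one step with all constants given -/
lemma approx_step {X : Type*} [NormedAddCommGroup X] [InnerProductSpace ℂ X] [CompleteSpace X]
    [TopologicalSpace.SeparableSpace X] {H₀ : Type*} [NormedAddCommGroup H₀]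
    [InnerProductSpace ℂ H₀] {Q : H₀ →L[ℂ] H₀} {ρ δ A ε κ ν η B1 B2 : ℝ} {n : ℕ}
    (hδ : 0 < δ) (hδQ : δ * ‖Q‖ ≤ ρ / 4) (hA : 0 ≤ A) (hAδ : A = 1 + δ⁻¹) (hε : 0 < ε)
    (hκ : 0 ≤ κ) (hκQ : κ = ‖Q ^ (n + 1)‖ +
      ∑ i ∈ Finset.range (n + 1), ‖Q ^ i‖ * (δ * ‖Q‖) * ‖Q ^ (n - i)‖)
    (hν : 0 ≤ ν) (hνQ : ν = ‖Q‖ + ρ / 4) (hη : 0 < η)
    (hB1 : B1 = ε⁻¹ ^ n * (1 + A))
    (hB2 : B2 = (∑ j ∈ Finset.range (n + 1), ε ^ j * ν ^ (n - j)) * (1 + A) + ε ^ n)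
    (hsum : ε * (1 + A) ^ 2 + (ε⁻¹ ^ n * (1 + A) ^ 2) * κ +
        η * (1 + (A + ε⁻¹ ^ n * (1 + A) * ((∑ j ∈ Finset.range (n + 1), ε ^ j * ν ^ (n - j)) * A))
          * (1 + A)) ≤ 3 * ρ / 4)
    {H : Type*} [NormedAddCommGroup H] [InnerProductSpace ℂ H] [CompleteSpace H]
    [TopologicalSpace.SeparableSpace H] (hH : ¬ FiniteDimensional ℂ H)
    {N : H →L[ℂ] H} (hNq : QN N) (hNQ : ∀ k, ‖N ^ k‖ ≤ ‖Q ^ k‖) {T : X →L[ℂ] X}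
    (hW : Window H T ε n) :
    ∃ S : X ≃L[ℂ] H, (∀ ξ, ‖S ξ‖ ≤ B1 * ‖ξ‖) ∧ (∀ x, ‖S.symm x‖ ≤ B2 * ‖x‖) ∧
      ‖(S : X →L[ℂ] H) ∘L T ∘L (S.symm : H →L[ℂ] X) - N‖ ≤ ρ := by
  have hN1 : ‖N‖ ≤ ‖Q‖ := by simpa using hNQ 1
  obtain ⟨Y, hYc, hYi, N', a, b, h1, h2, hba, hNa, hbN, ha, hb⟩ := exists_pert2 hH hNq n hδ hη
  have hδN' : δ * ‖N‖ ≤ δ * ‖Q‖ := mul_le_mul_of_nonneg_left hN1 hδ.le
  have h1' : ‖N' ^ (n + 1)‖ ≤ κ := by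
    refine h1.trans ?_
    rw [hκQ]
    refine add_le_add (hNQ _) (Finset.sum_le_sum fun i _ => ?_)
    exact mul_le_mul (mul_le_mul (hNQ i) hδN' (by positivity) (norm_nonneg _)) (hNQ _)
      (norm_nonneg _) (by positivity)
  rw [← hAδ] at ha
  have hN'ν : ‖N'‖ ≤ ν := by
    have h3 : ‖N'‖ ≤ ‖N' - N‖ + ‖N‖ := by
      have := norm_add_le (N' - N) N
      rwa [sub_add_cancel] at this
    rw [hνQ]
    linarith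
  obtain ⟨S, hS1, hS2, hS⟩ := approx_of_window2 hH hYc hYi a b hba hε hA hκ
    hη.le hν hN'ν h1' hNa hbN ha hb T hW
  rw [← hB1] at hS1
  rw [← hB2] at hS2
  refine ⟨S, hS1, hS2, ?_⟩
  have h4 := norm_add_le ((S : X →L[ℂ] H) ∘L T ∘L (S.symm : H →L[ℂ] X) - N') (N' - N)
  rw [sub_add_sub_cancel] at h4
  linarith

/-- uniform approximation of all operators whose powers are dominated by those of a quasinilpotent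
operator -/
theorem approx_unif {T₀ : Hs →L[ℂ] Hs} (hU : Univ.{u} T₀) {H₀ : Type*} [NormedAddCommGroup H₀]
    [InnerProductSpace ℂ H₀] {Q : H₀ →L[ℂ] H₀} (hQ : QN Q) {ρ : ℝ} (hρ : 0 < ρ) :
    ∃ (S₀ : Hs ≃L[ℂ] Hs) (B1 B2 : ℝ),
      ∀ (H : Type u) [NormedAddCommGroup H] [InnerProductSpace ℂ H] [CompleteSpace H]
        [TopologicalSpace.SeparableSpace H], ¬ FiniteDimensional ℂ H →
        ∀ N : H →L[ℂ] H, QN N → (∀ k, ‖N ^ k‖ ≤ ‖Q ^ k‖) →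
        ∃ S : Hs ≃L[ℂ] H, (∀ ξ, ‖S ξ‖ ≤ B1 * ‖ξ‖) ∧ (∀ x, ‖S.symm x‖ ≤ B2 * ‖x‖) ∧
          ‖cj S (cj S₀ T₀) - N‖ ≤ ρ := by
  have hQn := norm_nonneg Q
  obtain ⟨δ, hδ, hδN⟩ : ∃ δ : ℝ, 0 < δ ∧ δ * ‖Q‖ ≤ ρ / 4 := by
    refine ⟨ρ / (4 * (‖Q‖ + 1)), by positivity, ?_⟩
    rw [div_mul_eq_mul_div, div_le_div_iff₀ (by positivity) (by norm_num)]
    nlinarith
  obtain ⟨A, hAdef, hA⟩ : ∃ A : ℝ, A = 1 + δ⁻¹ ∧ 0 ≤ A := ⟨_, rfl, by positivity⟩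
  obtain ⟨ε, hε, hεA⟩ : ∃ ε : ℝ, 0 < ε ∧ ε * (1 + A) ^ 2 = ρ / 8 :=
    ⟨ρ / (8 * (1 + A) ^ 2), by positivity, by field_simp⟩
  obtain ⟨n, hn⟩ := exists_n hQ (D := δ * ‖Q‖) (B := (1 + A) ^ 2) (τ := ρ / 8) hε
    (by positivity) (by positivity) (by positivity)
  obtain ⟨κ, hκdef, hκ⟩ : ∃ κ : ℝ, κ = ‖Q ^ (n + 1)‖ +
      ∑ i ∈ Finset.range (n + 1), ‖Q ^ i‖ * (δ * ‖Q‖) * ‖Q ^ (n - i)‖ ∧ 0 ≤ κ :=
    ⟨_, rfl, by positivity⟩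
  rw [← hκdef] at hn
  obtain ⟨ν, hνdef, hν⟩ : ∃ ν : ℝ, ν = ‖Q‖ + ρ / 4 ∧ 0 ≤ ν := ⟨_, rfl, by positivity⟩
  obtain ⟨C2, hC2, hC2p⟩ : ∃ C2 : ℝ, C2 = 1 + (A + ε⁻¹ ^ n * (1 + A) *
    ((∑ j ∈ Finset.range (n + 1), ε ^ j * ν ^ (n - j)) * A)) * (1 + A) ∧ 0 < C2 :=
    ⟨_, rfl, by positivity⟩
  obtain ⟨η, hη, hηC⟩ : ∃ η : ℝ, 0 < η ∧ η * C2 = ρ / 8 :=
    ⟨ρ / (8 * C2), by positivity, by field_simp⟩
  obtain ⟨S₀, hW⟩ := hU ε hε n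
  refine ⟨S₀, ε⁻¹ ^ n * (1 + A),
    (∑ j ∈ Finset.range (n + 1), ε ^ j * ν ^ (n - j)) * (1 + A) + ε ^ n,
    fun H _ _ _ _ hH N hNq hNQ => ?_⟩
  refine approx_step hδ hδN hA hAdef hε hκ hκdef hν hνdef hη rfl rfl ?_ hH hNq hNQ (hW H hH)
  rw [← hC2, hηC, hεA]
  linarith

end Vale.Agent.P131.H97
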