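import Vale.Agent.P131.H97.Model
import Mathlib.MeasureTheory.Function.L2Space

/-!
The window inside the example.
-/

namespace Vale.Agent.P131.H97

open MeasureTheory Module Vale.Agent.P131 Vale.Agent.P131.H856
open scoped ENNReal

/-- the functions supported on index `0` -/
lemma exists_zeroFiber : ∃ K : Submodule ℂ Hs, IsClosed (K : Set Hs) ∧ ¬ FiniteDimensional ℂ K ∧
    ∀ ξ ∈ K, ∀ᵐ t : ℝ, ∀ n : ℤ, n ≠ 0 → (ξ : ℝ × ℤ → ℂ) (t, n) = 0 := by
  obtain ⟨P, hP⟩ := exists_mul (fun _ n => if n = 0 then (1 : ℝ) else 0)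
    (fun n => measurable_const) 1 (fun t n => by
      show |if n = 0 then (1 : ℝ) else 0| ≤ 1
      split_ifs <;> simp)
  let K : Submodule ℂ Hs := LinearMap.ker ((P - ContinuousLinearMap.id ℂ Hs : Hs →L[ℂ] Hs) : Hs →ₗ[ℂ] Hs)
  have hmem : ∀ ξ, ξ ∈ K ↔ P ξ = ξ := fun ξ => by
    change P ξ - ξ = 0 ↔ _
    rw [sub_eq_zero]
  refine ⟨K, (P - ContinuousLinearMap.id ℂ Hs).isClosed_ker, ?_, ?_⟩
  · intro hfin
    have hs : ∀ k : ℕ, MeasurableSet (Set.Ico (k : ℝ) (k + 1) ×ˢ ({0} : Set ℤ)) := fun k =>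
      measurableSet_Ico.prod (measurableSet_singleton 0)
    have hμ1 : ∀ k : ℕ, mu (Set.Ico (k : ℝ) (k + 1) ×ˢ ({0} : Set ℤ)) = 1 := fun k => by
      rw [mu, Measure.prod_prod]
      simp
    have hμ : ∀ k : ℕ, mu (Set.Ico (k : ℝ) (k + 1) ×ˢ ({0} : Set ℤ)) ≠ ∞ := fun k => by
      rw [hμ1]; exact ENNReal.one_ne_top
    let χ : ℕ → Hs := fun k => indicatorConstLp 2 (hs k) (hμ k) (1 : ℂ)
    have hχK : ∀ k, χ k ∈ K := by
      intro k
      rw [hmem]
      refine Lp.ext (ae_mu_of ?_)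
      have h1 : ∀ᵐ t : ℝ, ∀ n : ℤ, (χ k : ℝ × ℤ → ℂ) (t, n) =
          (Set.Ico (k : ℝ) (k + 1) ×ˢ ({0} : Set ℤ)).indicator (fun _ => (1 : ℂ)) (t, n) :=
        ex_ae_fiber (P := fun p => (χ k : ℝ × ℤ → ℂ) p =
          (Set.Ico (k : ℝ) (k + 1) ×ˢ ({0} : Set ℤ)).indicator (fun _ => (1 : ℂ)) p)
          indicatorConstLp_coeFn
      filter_upwards [hP (χ k), h1] with t h2 h3 n
      show ((P (χ k) : Hs) : ℝ × ℤ → ℂ) (t, n) = _
      rw [h2, h3]
      by_cases hn : n = 0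
      · simp [hn]
      · have : (t, n) ∉ Set.Ico (k : ℝ) (k + 1) ×ˢ ({0} : Set ℤ) := fun h => hn h.2
        rw [Set.indicator_of_notMem this, mul_zero]
    have horth : ∀ k l, k ≠ l → inner ℂ (χ k) (χ l) = 0 := by
      intro k l hkl
      have h1 : (Set.Ico (k : ℝ) (k + 1) ×ˢ ({0} : Set ℤ)) ∩ (Set.Ico (l : ℝ) (l + 1) ×ˢ ({0} : Set ℤ)) = ∅ := by
        ext ⟨t, n⟩
        simp only [Set.mem_inter_iff, Set.mem_prod, Set.mem_Ico, Set.mem_singleton_iff,
          Set.mem_empty_iff_false, iff_false]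
        rintro ⟨⟨⟨h2, h3⟩, -⟩, ⟨⟨h4, h5⟩, -⟩⟩
        rcases lt_or_gt_of_ne hkl with h | h
        · have : (k : ℝ) + 1 ≤ l := by exact_mod_cast h
          linarith
        · have : (l : ℝ) + 1 ≤ k := by exact_mod_cast h
          linarith
      have h2 := L2.inner_indicatorConstLp_indicatorConstLp (𝕜 := ℂ) (hs k) (hs l) (hμ k) (hμ l)
        (1 : ℂ) 1
      rw [h1] at h2
      refine h2.trans ?_
      simp
    have hne : ∀ k, χ k ≠ 0 := by
      intro k h
      have h1 : inner ℂ (χ k) (χ k) = (1 : ℂ) := by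
        have h2 := L2.inner_indicatorConstLp_indicatorConstLp (𝕜 := ℂ) (hs k) (hs k) (hμ k) (hμ k)
          (1 : ℂ) 1
        rw [Set.inter_self, Measure.real, hμ1] at h2
        refine h2.trans ?_
        simp
      rw [h, inner_zero_left] at h1
      exact zero_ne_one h1
    have hli : LinearIndependent ℂ χ :=
      linearIndependent_of_ne_zero_of_inner_eq_zero hne (fun k l hkl => horth k l hkl)
    have h2 : LinearIndependent ℂ (fun k => (⟨χ k, hχK k⟩ : K)) :=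
      LinearIndependent.of_comp (Submodule.subtype _) (by exact hli)
    exact Module.Finite.not_linearIndependent_of_infinite _ h2
  · intro ξ hξ
    filter_upwards [hP ξ] with t ht n hn
    have h1 := ht n
    rw [(hmem ξ).1 hξ, if_neg hn] at h1
    rw [h1]
    simp

end Vale.Agent.P131.H97
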